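import Crest.Agent.N218.Rd.Defs

/-! Row 218, RED (helper16): the constants of the dynamics. -/

set_option autoImplicit false
set_option linter.unusedSectionVars false
open Set Topology
open scoped InnerProductSpace

noncomputable section

namespace Crest.Agent.N218.Rd
open Pm

namespace Di

theorem drop {Z : Type} [TopologicalSpace Z] {Φ : Z → Z} {g : Z → ℝ} (hΦ : Continuous Φ)
    (hg : Continuous g) {I S K : Set Z} (hK : IsCompact K) (hI : ∀ w ∈ I, Φ w ∈ I)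
    (hS : ∀ w ∈ I, w ∈ S → Φ w ∈ S) (hIK : ∀ w ∈ I, w ∉ S → w ∈ K)
    (hd : ∀ w ∈ K, g (Φ w) < g w) : ∃ T : ℕ, ∀ w ∈ I, Φ^[T] w ∈ S := by
  obtain ⟨m, m0, hm⟩ := hK.exists_forall_le' (hg.sub (hg.comp hΦ)).continuousOn
    (a := 0) fun w hw => sub_pos.2 (hd w hw)
  obtain ⟨B, hB⟩ := hK.exists_bound_of_continuousOn hg.continuousOn
  have key : ∀ w ∈ I, ∀ n : ℕ, Φ^[n] w ∈ I ∧ (Φ^[n] w ∈ S ∨ g (Φ^[n] w) ≤ B - n * m) := by
    intro w hw n
    induction n with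
    | zero =>
      refine ⟨hw, or_iff_not_imp_left.2 fun k => ?_⟩
      simpa using (abs_le.1 (hB w (hIK w hw k))).2
    | succ n ih =>
      rw [Function.iterate_succ_apply']
      refine ⟨hI _ ih.1, ?_⟩
      by_cases k : Φ^[n] w ∈ S
      · exact .inl (hS _ ih.1 k)
      · have a := hm _ (hIK _ ih.1 k)
        have b := ih.2.resolve_left k
        simp only [Function.comp_apply, Pi.sub_apply] at a
        right; push_cast; linarith
  obtain ⟨T, hT⟩ := exists_nat_gt (2 * B / m)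
  refine ⟨T, fun w hw => by_contra fun k => ?_⟩
  have a := (abs_le.1 (hB _ (hIK _ (key w hw T).1 k))).1
  have b := (key w hw T).2.resolve_left k
  rw [div_lt_iff₀ m0] at hT
  linarith

variable {X E₁ E₂ : Type} [TopologicalSpace X] [NormedAddCommGroup E₁] [InnerProductSpace ℝ E₁]
  [NormedAddCommGroup E₂] [InnerProductSpace ℝ E₂] {G : Rg X E₁ E₂} {c κ R₀ M : ℝ}

theorem it_eq (n : ℕ) (w : X × E₁) :
    (fun w : X × E₁ => (w.1, G.f w))^[n] w = (w.1, G.fi n w) := by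
  induction n with
  | zero => rfl
  | succ n ih => rw [Function.iterate_succ_apply', ih, Rg.fi, Rg.fi, Function.iterate_succ_apply']

variable (h : G.Ok c κ R₀ M)
include h

theorem ker (x : X) (y : E₁) : G.ι' x (y - G.ι x (G.ι' x y)) = 0 := by
  refine ext_inner_left ℝ fun z => ?_
  have a := h.ad x (G.ι' x (G.ι x z)) y
  have b := h.ad x (G.ι' x y) (G.ι x z)
  rw [h.iii, real_inner_comm (G.ι' x y), ← b, real_inner_comm (G.ι x z)] at a
  rw [inner_zero_right, ← h.ad, inner_sub_right, a, sub_self]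

theorem orth (x : X) (z : E₂) {y : E₁} (e : G.ι' x y = 0) : ⟪G.ι x z, y⟫_ℝ = 0 := by
  rw [h.ad, e, inner_zero_right]

theorem kerH (x : X) {y : E₁} (e : G.ι' x y = 0) : G.ι' x (G.H x y) = 0 := by
  have := ker h x (G.H x y)
  rwa [← h.HP, e, map_zero, map_zero, sub_zero] at this

theorem le_half (x : X) (y : E₁) : ⟪G.H x y, y⟫_ℝ ≤ 1 / 2 * ‖y‖ ^ 2 :=
  (real_inner_le_norm _ _).trans (by nlinarith [h.Hn x y, norm_nonneg y])

theorem contr (x : X) {y : E₁} (e : G.ι' x y = 0) : ‖y - G.H x y‖ ≤ ‖y‖ := by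
  have a := h.Hp x (y - (2 : ℝ) • G.H x y) (by rw [map_sub, map_smul, e, kerH h x e]; simp)
  have b := le_half h x (G.H x y)
  have d := h.Hs x (G.H x y) y
  simp only [map_sub, map_smul, inner_sub_left, inner_sub_right, real_inner_smul_left,
    real_inner_smul_right, real_inner_self_eq_norm_sq] at a d
  refine abs_le_of_sq_le_sq' ?_ (norm_nonneg _) |>.2
  rw [norm_sub_sq_real, real_inner_comm]
  nlinarith [sq_nonneg ‖G.H x y‖]

theorem pyth (x : X) (y : E₁) :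
    ‖y‖ ^ 2 = ‖G.ι x (G.ι' x y)‖ ^ 2 + ‖y - G.ι x (G.ι' x y)‖ ^ 2 := by
  have := norm_add_sq_real (G.ι x (G.ι' x y)) (y - G.ι x (G.ι' x y))
  rwa [add_sub_cancel, orth h x _ (ker h x y), mul_zero, add_zero] at this

theorem form (x : X) (y : E₁) : ⟪G.H x y, y⟫_ℝ ≤
    -(G.a * ‖G.ι x (G.ι' x y)‖ ^ 2) + 1 / 2 * ‖y - G.ι x (G.ι' x y)‖ ^ 2 := by
  have a := h.Hm x (G.ι' x y)
  have b := le_half h x (y - G.ι x (G.ι' x y))
  have d := orth h x (G.ι' x y) (kerH h x (ker h x y))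
  have d' := (h.Hs x _ _).trans d
  rw [real_inner_comm] at d
  simp only [map_sub, inner_sub_left, inner_sub_right] at b d d'
  linarith

theorem f_lin (x : X) {y : E₁} (hy : ‖y‖ ≤ 2 * G.r) : G.f (x, y) = y - G.H x y := by
  obtain ⟨a, -, b⟩ := h.ln x y hy
  rw [← h.j1 _ a, b 1 ⟨zero_le_one, le_rfl⟩, one_smul]

theorem g_f {w : X × E₁} (hw : w ∈ G.Dm) : G.g (w.1, G.f w) ≤ G.g w :=
  h.j1 w hw ▸ h.jg 1 ⟨zero_le_one, le_rfl⟩ w hw

theorem di : ∃ T, ∀ w ∈ G.Dm,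
    ‖G.fi T w‖ < G.r ∨ G.g (w.1, G.fi T w) ≤ -(G.a * G.r ^ 2 / 4) := by
  have a0 := h.ha
  have r0 := h.hr
  obtain ⟨t, t0, t1, t2⟩ : ∃ t : ℝ, 0 < t ∧ t < 1 ∧ t * (1 + 2 * G.a) ≤ G.a :=
    ⟨G.a / (1 + 2 * G.a), by positivity, by rw [div_lt_one (by positivity)]; linarith,
      (div_mul_cancel₀ _ (by positivity)).le⟩
  refine (drop (continuous_fst.prodMk h.fc) h.gc (I := G.Dm)
    (S := {w | G.g w ≤ -(G.a * G.r ^ 2 / 4) ∨
      ‖w.2‖ < G.r ∧ ‖w.2 - G.ι w.1 (G.ι' w.1 w.2)‖ ≤ t * G.r})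
    ((h.gk (G.a * G.r ^ 2 / 4)).inter_right
      (isClosed_le continuous_const continuous_snd.norm : IsClosed {w : X × E₁ | t * G.r ≤ ‖w.2‖}))
    (fun w _ => h.fD w) (fun w hw k => ?_) (fun w hw k => ⟨⟨hw, (not_le.1 fun e => k (.inl e)).le⟩,
      not_lt.1 fun e => k (.inr ⟨e.trans (by nlinarith), le_trans ?_ e.le⟩)⟩)
    fun w hw => h.gf w hw.1.1 (norm_pos_iff.1 (lt_of_lt_of_le (by positivity) hw.2))).imp
      fun T hT w hw => ?_
  rotate_right
  · have := hT w hw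
    rw [it_eq] at this
    exact this.symm.imp_left And.left
  · rcases k with k | ⟨k, k'⟩
    · exact .inl ((g_f h hw).trans k)
    obtain ⟨x, y⟩ := w
    dsimp only at k k' ⊢
    rw [mem_setOf_eq, f_lin h x (by linarith)]
    dsimp only
    have e : ‖y - G.H x y - G.ι x (G.ι' x (y - G.H x y))‖ ≤ t * G.r := by
      refine le_trans (le_of_eq (congrArg _ ?_)) ((contr h x (ker h x y)).trans k')
      simp only [map_sub, h.HP]; abel
    refine or_iff_not_imp_right.2 fun n => ?_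
    have n1 : G.r ≤ ‖y - G.H x y‖ := not_lt.1 fun l => n ⟨l, e⟩
    have n2 : ‖y - G.H x y‖ ≤ 2 * G.r := (norm_sub_le _ _).trans (by linarith [h.Hn x y])
    rw [(h.ln x _ n2).2.1]
    have p := pyth h x (y - G.H x y)
    have q := form h x (y - G.H x y)
    have u := pow_le_pow_left₀ (norm_nonneg _) e 2
    have v := pow_le_pow_left₀ r0.le n1 2
    have s : (t * G.r) ^ 2 * (1 + 2 * G.a) ≤ G.a * G.r ^ 2 := by
      have := mul_le_mul (mul_le_mul t1.le t2 (by positivity) zero_le_one) (le_refl (G.r ^ 2))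
        (by positivity) (by positivity)
      nlinarith
    nlinarith [mul_le_mul_of_nonneg_left u a0.le, mul_le_mul_of_nonneg_left v a0.le]
  · exact (abs_le_of_sq_le_sq' (by nlinarith [pyth h w.1 w.2, sq_nonneg ‖G.ι w.1 (G.ι' w.1 w.2)‖])
      (norm_nonneg _)).2

theorem es [CompactSpace X] [FiniteDimensional ℝ E₁] {η R : ℝ} (η0 : 0 < η) (hR : R₀ ≤ R) :
    ∃ T, ∀ w ∈ G.Dm, G.g w ≤ -η → R ≤ ‖G.p₁ w.1 (G.fi T w)‖ := by
  have := FiniteDimensional.proper_real E₁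
  have pc : Continuous fun w : X × E₁ => ‖G.p₁ w.1 w.2‖ :=
    ((h.pc.comp continuous_fst).clm_apply continuous_snd).norm
  refine (drop (continuous_fst.prodMk h.fc) h.gc (I := G.Dm ∩ {w | G.g w ≤ -η})
    (S := {w | R ≤ ‖G.p₁ w.1 w.2‖})
    ((isCompact_univ.prod (isCompact_closedBall (0 : E₁) (M + R))).inter_right
      (h.dc.inter (isClosed_le h.gc continuous_const : IsClosed {w | G.g w ≤ -η})))
    (fun w hw => ⟨h.fD w, (g_f h hw.1).trans hw.2⟩)
    (fun w hw k => le_trans k (h.j1 w hw.1 ▸ h.jx 1 ⟨zero_le_one, le_rfl⟩ w hw.1 (hR.trans k)))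
    (fun w hw k => ⟨⟨trivial, mem_closedBall_zero_iff.2 ?_⟩, hw⟩)
    fun w hw => h.gf w hw.2.1 fun e => ?_).imp fun T hT w hw k => ?_
  rotate_right
  · have := hT w ⟨hw, k⟩
    rwa [it_eq] at this
  · have a := norm_add_le (w.2 - G.p₁ w.1 w.2) (G.p₁ w.1 w.2)
    rw [sub_add_cancel] at a
    linarith [h.db w hw.1, not_le.1 (show ¬ R ≤ ‖G.p₁ w.1 w.2‖ from k)]
  · obtain ⟨x, y⟩ := w
    obtain rfl : y = 0 := e
    have a := (h.ln x 0 (by simpa using h.hr.le)).2.1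
    have b : G.g (x, 0) ≤ -η := hw.2.2
    rw [inner_zero_right] at a
    linarith

end Di

theorem dich : DICH := by
  intro X E₁ E₂ _ _ _ _ _ _ _ _ _ G c κ R₀ M h
  have a0 := h.ha
  have r0 := h.hr
  obtain ⟨T, hT⟩ := Di.di h
  obtain ⟨B, hB⟩ := (h.gk (G.a * G.r ^ 2 / 4)).exists_bound_of_continuousOn
    continuous_snd.continuousOn
  obtain ⟨T', hT'⟩ := Di.es h (η := G.a * G.r ^ 2 / 4 / 2) (by positivity)
    (le_max_left R₀ (max (2 * G.r) (max 1 (B + 1))))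
  refine ⟨T, T', G.a * G.r ^ 2 / 4, _, by positivity, by nlinarith [mul_pos a0 (pow_pos r0 2)],
    le_max_left _ _, le_max_of_le_right (le_max_left _ _),
    le_max_of_le_right (le_max_of_le_right (le_max_left _ _)), fun w hw k => not_lt.1 fun e => ?_,
    hT, fun w hw k => hT' w hw (by rwa [neg_div] at k)⟩
  have a := hB w ⟨hw, e.le⟩
  have b := (le_max_of_le_right (le_max_of_le_right (le_max_right _ _))).trans k
  linarith [h.pn w.1 w.2]

end Crest.Agent.N218.Rd
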