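import Crest.Agent.N218.Rd.Defs
import Crest.Agent.N218.Pm.Kit1

/-! Row 218, RED (helper48): the clauses on `h₁`. -/

set_option autoImplicit false
set_option linter.unusedSectionVars false
open Set Topology Metric
open scoped InnerProductSpace

noncomputable section

namespace Crest.Agent.N218.Rd
open Pm

namespace Ha
variable {X E₁ E₂ : Type} [TopologicalSpace X] [NormedAddCommGroup E₁] [InnerProductSpace ℝ E₁]
  [NormedAddCommGroup E₂] [InnerProductSpace ℝ E₂] {G : Rg X E₁ E₂} {c κ R₀ M : ℝ}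
  (h : G.Ok c κ R₀ M)
include h

theorem it_le {t : ℝ} (ht : t ≤ 0) (w : X × E₁) : ∀ n, G.it t w n = w.2
  | 0 => rfl
  | n + 1 => by
    rw [Rg.it, cl_of_le (by linarith [(n.cast_nonneg : (0 : ℝ) ≤ n)]), h.j0, it_le ht w n]

theorem it_mem (t : ℝ) {w : X × E₁} (hw : w ∈ G.Dm) : ∀ n, (w.1, G.it t w n) ∈ G.Dm
  | 0 => hw
  | n + 1 => h.jD _ (cl_mem _) _ (it_mem t hw n)

theorem it_ge {t : ℝ} {w : X × E₁} (hw : w ∈ G.Dm) : ∀ n : ℕ, (n : ℝ) ≤ t → G.it t w n = G.fi n w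
  | 0, _ => rfl
  | n + 1, e => by
    push_cast at e
    rw [Rg.it, cl_of_ge (by linarith), h.j1 _ (it_mem h t hw n), it_ge hw n (by linarith), Rg.fi,
      Rg.fi, Function.iterate_succ_apply']

theorem it_p (t : ℝ) {w : X × E₁} (hw : w ∈ G.Dm) (hR : R₀ ≤ ‖G.p₁ w.1 w.2‖) :
    ∀ n, ‖G.p₁ w.1 w.2‖ ≤ ‖G.p₁ w.1 (G.it t w n)‖
  | 0 => le_rfl
  | n + 1 => (it_p t hw hR n).trans
      (h.jx _ (cl_mem _) _ (it_mem h t hw n) (hR.trans (it_p t hw hR n)))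

theorem it_ct : ∀ n, Continuous fun a : ℝ × X × E₁ => G.it a.1 a.2 n
  | 0 => by simp only [Rg.it]; fun_prop
  | n + 1 => by
    have := it_ct n
    simp only [Rg.it]
    exact h.jc.comp (by fun_prop)

theorem p_S (x : X) (l : ℝ) (y : E₁) : G.p₁ x (G.S x l y) = l • G.p₁ x y := by
  rw [Rg.S, map_add, map_smul, h.pi]; module

theorem r_S (x : X) (l : ℝ) (y : E₁) : G.S x l y - G.p₁ x (G.S x l y) = y - G.p₁ x y := by
  rw [p_S h, Rg.S]; module

theorem i_P (x : X) (y : E₁) : G.ι' x (y - G.P x y) = 0 := by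
  refine ext_inner_left ℝ fun z => ?_
  have e : ⟪G.ι x z, G.ι x (G.ι' x y)⟫_ℝ = ⟪G.ι x z, y⟫_ℝ := by
    rw [real_inner_comm, h.ad, real_inner_comm, ← h.ad, h.iii]
  rw [inner_zero_right, ← h.ad, inner_sub_right]
  exact sub_eq_zero.2 e.symm

theorem orth (x : X) (y y' : E₁) : ⟪G.P x y', y - G.P x y⟫_ℝ = 0 := by
  rw [show G.P x y' = G.ι x (G.ι' x y') from rfl, h.ad, i_P h, inner_zero_right]

theorem nrm (x : X) (y : E₁) : ‖G.P x y‖ ≤ ‖y‖ ∧ ‖y - G.P x y‖ ≤ ‖y‖ := by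
  have := norm_add_sq_real (G.P x y) (y - G.P x y)
  rw [orth h, add_sub_cancel] at this
  exact ⟨le_of_sq_le_sq (by nlinarith [sq_nonneg ‖y - G.P x y‖]) (norm_nonneg _),
    le_of_sq_le_sq (by nlinarith [sq_nonneg ‖G.P x y‖]) (norm_nonneg _)⟩

theorem q_eq (x : X) (y : E₁) (a l : ℝ) :
    ⟪G.H x (a • (y - G.P x y) + l • G.P x y), a • (y - G.P x y) + l • G.P x y⟫_ℝ =
      a ^ 2 * ⟪G.H x (y - G.P x y), y - G.P x y⟫_ℝ + l ^ 2 * ⟪G.H x (G.P x y), G.P x y⟫_ℝ := by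
  have e : ⟪G.H x (G.P x y), y - G.P x y⟫_ℝ = 0 := by
    rw [show G.H x (G.P x y) = G.P x (G.H x y) from h.HP x y, orth h]
  have e' : ⟪G.H x (y - G.P x y), G.P x y⟫_ℝ = 0 := by rw [h.Hs, real_inner_comm, e]
  rw [map_add, map_smul, map_smul]
  simp only [inner_add_left, inner_add_right, real_inner_smul_left, real_inner_smul_right, e, e']
  ring

theorem q_le (x : X) (y : E₁) {a l : ℝ} (a0 : 0 ≤ a) (a1 : a ≤ 1) (l1 : 1 ≤ l) :
    ⟪G.H x (a • (y - G.P x y) + l • G.P x y), a • (y - G.P x y) + l • G.P x y⟫_ℝ ≤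
      ⟪G.H x y, y⟫_ℝ ∧ -(1 / 2 * ‖G.P x y‖ ^ 2) ≤ ⟪G.H x y, y⟫_ℝ := by
  have e := q_eq h x y 1 1
  rw [one_smul, one_smul, sub_add_cancel] at e
  have u := h.Hp x _ (i_P h x y)
  have v : ⟪G.H x (G.P x y), G.P x y⟫_ℝ ≤ 0 :=
    (h.Hm x _).trans (neg_nonpos.2 (mul_nonneg h.ha.le (sq_nonneg _)))
  have w := (abs_le.1 (abs_real_inner_le_norm (G.H x (G.P x y)) (G.P x y))).1
  have w' := mul_le_mul_of_nonneg_right (h.Hn x (G.P x y)) (norm_nonneg (G.P x y))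
  rw [q_eq h, e]
  constructor
  · nlinarith [mul_nonneg u (by nlinarith : 0 ≤ 1 - a ^ 2),
      mul_nonneg (neg_nonneg.2 v) (by nlinarith : 0 ≤ l ^ 2 - 1)]
  · nlinarith

omit h in
theorem chi_lt {η t : ℝ} (h0 : 0 < η) : χ η t < 1 ↔ -η < t := by
  rw [χ, cl, max_lt_iff, min_lt_iff, sub_lt_iff_lt_add, div_lt_iff₀ h0]
  exact ⟨fun a => by linarith [a.2.resolve_left (lt_irrefl _)],
    fun a => ⟨one_pos, .inr (by linarith)⟩⟩

omit h in
theorem chi_ne {η t : ℝ} (h0 : 0 < η) (e : χ η t ≠ 0) : t ≤ -η / 2 := by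
  refine le_of_not_gt fun a => e (cl_of_le ?_)
  rw [sub_nonpos, div_le_one h0]; linarith

omit h in
theorem th_ge {η β t : ℝ} (b : 0 ≤ β) (e : β * χ η t < 1) : 1 ≤ th η β t :=
  (one_le_inv₀ (sub_pos.2 e)).2 (sub_le_self _ (mul_nonneg b (cl_mem _).1))

variable {T T' : ℕ} {η R₁ : ℝ} {x : X} {s : ℝ} {y : E₁}

theorem Yt_lo (hs : s ≤ 1 / 4) : G.Yt T T' ((x, s), y) = G.ph ((x, 4 * s), y) := by
  rw [Rg.Yt, cl_of_le (by linarith), it_le h (by simp)]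

theorem Yt_f (hs : 1 / 4 ≤ s) :
    G.Yt T T' ((x, s), y) = G.it ((T + T') * cl (4 * s - 1)) (x, G.f (x, y)) T := by
  rw [Rg.Yt, (h.en x (4 * s) y (by linarith)).2]

theorem Yt_mem (hs : 1 / 4 ≤ s) : (x, G.Yt T T' ((x, s), y)) ∈ G.Dm := by
  rw [Yt_f h hs]; exact it_mem h _ (h.fD (x, y)) T

theorem Yt_hi (hs : 1 / 2 ≤ s) : G.Yt T T' ((x, s), y) = G.F T (x, y) := by
  rw [Yt_f h (by linarith), cl_of_ge (by linarith), it_ge h (h.fD (x, y)) T (by simp)]; rfl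

omit h in
theorem Wt_lo (hs : s ≤ 3 / 4) : G.Wt T T' η ((x, s), y) = G.Yt T T' ((x, s), y) := by
  rw [Rg.Wt, cl_of_le (by linarith)]; simp

theorem hi (k : G.Cst R₀ T T' η R₁) (hs : 3 / 4 ≤ s) (ho : ((x, s), y) ∈ (G.rd T T' η).O₁) :
    ‖G.Yt T T' ((x, s), y)‖ < G.r ∧ G.m T T' η ((x, s), y) ≤ G.θ T T' η ((x, s), y) ∧
      (x, G.Wt T T' η ((x, s), y)) ∈ G.Dm ∧
      G.g (x, G.Wt T T' η ((x, s), y)) ≤ G.g (x, G.Yt T T' ((x, s), y)) ∧
      (G.g (x, G.Yt T T' ((x, s), y)) ≤ -η / 2 →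
        G.θ T T' η ((x, s), y) * (2 * η / G.r ^ 2) ≤ G.m T T' η ((x, s), y)) := by
  have t1 : 1 ≤ G.θ T T' η ((x, s), y) := th_ge (cl_mem _).1 ho.2
  have o := ho.2
  dsimp only at o
  rw [cl_of_ge (by linarith), one_mul, chi_lt k.η0] at o
  have n : ‖G.Yt T T' ((x, s), y)‖ < G.r := by
    rw [Yt_hi h (by linarith)] at o ⊢
    exact (k.di _ (h.fD (x, y))).resolve_right o.not_ge
  have eW : G.Wt T T' η ((x, s), y) = (1 - cl (4 * s - 3)) • (G.Yt T T' ((x, s), y) -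
      G.P x (G.Yt T T' ((x, s), y))) + (1 + cl (4 * s - 3) * (G.θ T T' η ((x, s), y) /
        G.m T T' η ((x, s), y) - 1)) • G.P x (G.Yt T T' ((x, s), y)) := by
    rw [Rg.Wt]; module
  have m1 : 1 ≤ G.m T T' η ((x, s), y) := le_max_left _ _
  have m2 : G.θ T T' η ((x, s), y) * ‖G.P x (G.Yt T T' ((x, s), y))‖ / G.r ≤
      G.m T T' η ((x, s), y) := by
    refine le_trans (le_of_eq ?_) (le_max_right _ _)
    rw [norm_smul, Real.norm_of_nonneg (by linarith)]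
  have m3 : G.m T T' η ((x, s), y) ≤ G.θ T T' η ((x, s), y) := max_le t1 (by
    rw [norm_smul, Real.norm_of_nonneg (by linarith), div_le_iff₀ h.hr]
    exact mul_le_mul_of_nonneg_left ((nrm h x _).1.trans n.le) (by linarith))
  obtain ⟨n1, n2⟩ := nrm h x (G.Yt T T' ((x, s), y))
  have r0 := h.hr
  obtain ⟨σ0, σ1⟩ := cl_mem (4 * s - 3)
  rw [eW]
  generalize G.θ T T' η ((x, s), y) = θ at *
  generalize G.m T T' η ((x, s), y) = m at *
  generalize G.Yt T T' ((x, s), y) = Y at *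
  generalize cl (4 * s - 3) = σ at *
  have d1 : 1 ≤ θ / m := (one_le_div (by linarith)).2 m3
  have d2 : θ / m * ‖G.P x Y‖ ≤ G.r := by
    rw [div_le_iff₀ r0] at m2
    rw [div_mul_eq_mul_div, div_le_iff₀ (by linarith)]; linarith
  have l1 : 1 ≤ 1 + σ * (θ / m - 1) := by nlinarith
  have nW : ‖(1 - σ) • (Y - G.P x Y) + (1 + σ * (θ / m - 1)) • G.P x Y‖ ≤ 2 * G.r := by
    refine (norm_add_le _ _).trans ?_
    rw [norm_smul, norm_smul, Real.norm_of_nonneg (by linarith), Real.norm_of_nonneg (by linarith)]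
    nlinarith [mul_le_mul_of_nonneg_left d2 σ0, mul_le_mul_of_nonneg_left (n1.trans n.le)
      (sub_nonneg.2 σ1), mul_le_mul_of_nonneg_left (n2.trans n.le) (sub_nonneg.2 σ1)]
  obtain ⟨q1, q2⟩ := q_le h x Y (sub_nonneg.2 σ1) (by linarith) l1
  have gY := (h.ln x Y (by linarith)).2.1
  refine ⟨n, m3, (h.ln x _ nW).1, by rw [(h.ln x _ nW).2.1, gY]; linarith, fun e => ?_⟩
  refine le_trans ?_ m2
  rw [mul_div_assoc θ]
  refine mul_le_mul_of_nonneg_left ?_ (by linarith)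
  rw [div_le_div_iff₀ (by positivity) r0]
  have : 2 * η ≤ ‖G.P x Y‖ * G.r := by
    nlinarith [mul_le_mul_of_nonneg_left (n1.trans n.le) (norm_nonneg (G.P x Y))]
  nlinarith

/-- the scaling factor -/
abbrev lf (G : Rg X E₁ E₂) (T T' : ℕ) (η : ℝ) (w : (X × ℝ) × E₁) : ℝ :=
  (1 - cl (4 * w.1.2 - 3)) * G.θ T T' η w + cl (4 * w.1.2 - 3) * G.m T T' η w

omit h in
theorem h1_eq (w : (X × ℝ) × E₁) : (G.rd T T' η).h₁ w = G.S w.1.1 (lf G T T' η w)
    (G.it ((T + T') * cl (4 * w.1.2 - 1) - T) (w.1.1, G.Wt T T' η w) T') := rfl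

omit h in
theorem lf_ge {w : (X × ℝ) × E₁} (ho : w ∈ (G.rd T T' η).O₁) : 1 ≤ lf G T T' η w := by
  have t1 : 1 ≤ G.θ T T' η w := th_ge (cl_mem _).1 ho.2
  have m1 : 1 ≤ G.m T T' η w := le_max_left _ _
  obtain ⟨σ0, σ1⟩ := cl_mem (4 * w.1.2 - 3)
  nlinarith

theorem Wt_mem (k : G.Cst R₀ T T' η R₁) (hs : 1 / 4 ≤ s) (ho : ((x, s), y) ∈ (G.rd T T' η).O₁) :
    (x, G.Wt T T' η ((x, s), y)) ∈ G.Dm := by
  rcases le_total s (3 / 4) with a | a
  · rw [Wt_lo a]; exact Yt_mem h hs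
  · exact (hi h k a ho).2.2.1

theorem lo (hs : s ≤ 1 / 4) : (((x, s), y) ∈ (G.rd T T' η).O₁ ↔ ((x, 4 * s), y) ∈ G.O) ∧
    (G.rd T T' η).h₁ ((x, s), y) = G.ph ((x, 4 * s), y) := by
  have a : cl (4 * s - 2) = 0 := cl_of_le (by linarith)
  refine ⟨⟨fun b => b.1, fun b => ⟨b, by dsimp only; rw [a]; simp⟩⟩, ?_⟩
  rw [h1_eq, it_le h (by dsimp only; rw [cl_of_le (by linarith)]; simp), Wt_lo (by linarith),
    Yt_lo h hs, lf, cl_of_le (by linarith), Rg.θ, a]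
  simp [th, Rg.S]

theorem th_bd (k : G.Cst R₀ T T' η R₁) (hs : 1 / 4 ≤ s) (ho : ((x, s), y) ∈ (G.rd T T' η).O₁) :
    G.θ T T' η ((x, s), y) * min 1 (2 * η / G.r ^ 2) ≤ max 1 ‖(G.rd T T' η).h₁ ((x, s), y)‖ := by
  have t1 : 1 ≤ G.θ T T' η ((x, s), y) := th_ge (cl_mem _).1 ho.2
  by_cases e : cl (4 * s - 2) * χ η (G.g (x, G.Yt T T' ((x, s), y))) = 0
  · rw [Rg.θ, th, e]
    simp
  obtain ⟨e1, e2⟩ := mul_ne_zero_iff.1 e
  have s2 : 1 / 2 ≤ s := le_of_not_gt fun a => e1 (cl_of_le (by linarith))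
  have g := chi_ne k.η0 e2
  have w := Wt_mem h k hs ho
  have key : G.g (x, G.Wt T T' η ((x, s), y)) ≤ -η / 2 →
      lf G T T' η ((x, s), y) ≤ max 1 ‖(G.rd T T' η).h₁ ((x, s), y)‖ := fun a => by
    refine le_max_of_le_right (le_trans ?_ (h.pn x _))
    have l := lf_ge ho
    rw [h1_eq, p_S h, norm_smul, Real.norm_of_nonneg (by linarith),
      it_ge h w T' (by dsimp only; rw [cl_of_ge (by linarith)]; simp)]
    exact le_mul_of_one_le_right (by linarith) (k.R1.trans (k.es _ w a))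
  rcases le_total s (3 / 4) with a | a
  · refine le_trans ?_ (key (by rwa [Wt_lo a]))
    rw [lf, cl_of_le (by linarith), sub_zero, one_mul, zero_mul, add_zero]
    exact mul_le_of_le_one_right (by linarith) (min_le_left _ _)
  · obtain ⟨-, b1, -, b2, b3⟩ := hi h k a ho
    refine le_trans ?_ (key (b2.trans g))
    obtain ⟨σ0, σ1⟩ := cl_mem (4 * s - 3)
    have := (mul_le_mul_of_nonneg_left (min_le_right 1 _) (by linarith)).trans (b3 g)
    rw [lf]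
    nlinarith

/-- the part of the domain that comes from `O` -/
abbrev O' (G : Rg X E₁ E₂) : Set ((X × ℝ) × E₁) := {w | ((w.1.1, 4 * w.1.2), w.2) ∈ G.O}

theorem ct_Y : ContinuousOn (G.Yt T T') (O' G) := by
  have a : ContinuousOn (fun w : (X × ℝ) × E₁ => G.ph ((w.1.1, 4 * w.1.2), w.2)) (O' G) :=
    h.hp.ct.comp (by fun_prop) fun _ a => a
  exact (it_ct h T).comp_continuousOn (f := fun w : (X × ℝ) × E₁ =>
    ((T + T') * cl (4 * w.1.2 - 1), w.1.1, G.ph ((w.1.1, 4 * w.1.2), w.2))) (by fun_prop)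

theorem ct_c : ContinuousOn (fun w : (X × ℝ) × E₁ =>
    cl (4 * w.1.2 - 2) * χ η (G.g (w.1.1, G.Yt T T' w))) (O' G) := by
  have a := ct_Y h (T := T) (T' := T')
  have b : Continuous fun w => χ η (G.g w) := by
    have := h.gc
    unfold χ; fun_prop
  exact (Continuous.continuousOn (by fun_prop)).mul (b.comp_continuousOn (by fun_prop))

theorem ct_h : ContinuousOn (G.rd T T' η).h₁ (G.rd T T' η).O₁ := by
  have a : ContinuousOn (G.Yt T T') (G.rd T T' η).O₁ := (ct_Y h).mono fun _ a => a.1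
  have b : ContinuousOn (G.θ T T' η) (G.rd T T' η).O₁ :=
    (continuousOn_const.sub ((ct_c h).mono fun _ a => a.1)).inv₀ fun _ a => (sub_pos.2 a.2).ne'
  have c1 := h.ic
  have c2 := h.ic'
  have c3 := h.pc
  have p : ContinuousOn (fun w => G.P w.1.1 (G.Yt T T' w)) (G.rd T T' η).O₁ := by
    change ContinuousOn (fun w : (X × ℝ) × E₁ => G.ι w.1.1 (G.ι' w.1.1 (G.Yt T T' w))) _
    fun_prop
  have m : ContinuousOn (G.m T T' η) (G.rd T T' η).O₁ :=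
    (continuous_const.max continuous_id).comp_continuousOn ((b.smul p).norm.div_const _)
  have d := b.div m fun w _ => (one_pos.trans_le (le_max_left _ _)).ne'
  have c4 : ∀ r : ℝ, ContinuousOn (fun w : (X × ℝ) × E₁ => cl (4 * w.1.2 - r))
    (G.rd T T' η).O₁ := fun r => Continuous.continuousOn (by fun_prop)
  have W : ContinuousOn (G.Wt T T' η) (G.rd T T' η).O₁ :=
    (a.sub ((c4 3).smul (a.sub p))).add (((c4 3).mul (d.sub continuousOn_const)).smul p)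
  have I := (it_ct h T').comp_continuousOn (f := fun w : (X × ℝ) × E₁ =>
    ((T + T') * cl (4 * w.1.2 - 1) - T, w.1.1, G.Wt T T' η w))
    (((continuousOn_const.mul (c4 1)).sub continuousOn_const).prodMk
      (continuous_fst.fst.continuousOn.prodMk W))
  have l : ContinuousOn (lf G T T' η) (G.rd T T' η).O₁ :=
    ((continuousOn_const.sub (c4 3)).mul b).add ((c4 3).mul m)
  exact I.add ((l.sub continuousOn_const).smul
    ((c3.comp continuous_fst.fst).continuousOn.clm_apply I))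

omit h in
theorem cpt [T2Space X] {K O : Set ((X × ℝ) × E₁)} {f : (X × ℝ) × E₁ → E₁} {R : ℝ} (hK : IsCompact K)
    (hf : ContinuousOn f K) (kO : K ⊆ O) (h : {w ∈ O | |w.1.2| ≤ R ∧ ‖f w‖ ≤ R ∧ ‖w.2‖ ≤ R} ⊆ K) :
    IsCompact {w ∈ O | |w.1.2| ≤ R ∧ ‖f w‖ ≤ R ∧ ‖w.2‖ ≤ R} := by
  have C : Continuous fun w : (X × ℝ) × E₁ => max |w.1.2| ‖w.2‖ := by fun_prop
  have Z := (hf.norm.preimage_isClosed_of_isClosed hK.isClosed
    (isClosed_Iic (a := R))).inter (isClosed_le C (continuous_const (y := R)))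
  convert hK.of_isClosed_subset Z fun _ a => a.1.1 using 1
  ext w
  exact ⟨fun a => ⟨⟨h a, a.2.2.1⟩, max_le a.2.1 a.2.2.2⟩,
    fun a => ⟨kO a.1.1, (le_max_left _ _).trans a.2, a.1.2, (le_max_right _ _).trans a.2⟩⟩

theorem cp [CompactSpace X] [T2Space X] [FiniteDimensional ℝ E₁] (k : G.Cst R₀ T T' η R₁) (R : ℝ) :
    IsCompact {w ∈ (G.rd T T' η).O₁ | |w.1.2| ≤ R ∧ ‖(G.rd T T' η).h₁ w‖ ≤ R ∧ ‖w.2‖ ≤ R} := by
  let e : (X × ℝ) × E₁ ≃ₜ (X × ℝ) × E₁ := ((Homeomorph.refl X).prodCongr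
    (Homeomorph.mulLeft₀ (4 : ℝ) (by norm_num))).prodCongr (Homeomorph.refl E₁)
  have K1 := (e.isCompact_preimage.2 (h.hp.cp (4 * |R|))).inter_right
    (isClosed_le (f := fun w : (X × ℝ) × E₁ => w.1.2) (g := fun _ => 1 / 4) (by fun_prop)
      (by fun_prop))
  have B : IsCompact (((univ : Set X) ×ˢ Icc (1 / 4 : ℝ) R) ×ˢ closedBall (0 : E₁) R) :=
    (isCompact_univ.prod isCompact_Icc).prod (isCompact_closedBall _ _)
  have bO : ((univ : Set X) ×ˢ Icc (1 / 4 : ℝ) R) ×ˢ closedBall (0 : E₁) R ⊆ O' G :=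
    fun w a => (h.en _ _ _ (by linarith [a.1.2.1])).1
  have e0 : 0 < min 1 (2 * η / G.r ^ 2) / max 1 R := by
    have := k.η0
    have := h.hr
    positivity
  have K2 := B.of_isClosed_subset (((ct_c h (T := T) (T' := T') (η := η)).mono
    bO).preimage_isClosed_of_isClosed B.isClosed
      (isClosed_Iic (a := 1 - min 1 (2 * η / G.r ^ 2) / max 1 R))) inter_subset_left
  refine cpt (K1.union K2) ((ct_h h).mono ?_) ?_ ?_
  iterate 2
    rintro w (a | a)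
    · exact (lo h a.2).1.2 a.1.1
    · exact ⟨bO a.1, lt_of_le_of_lt a.2 (sub_lt_self _ e0)⟩
  rintro ⟨⟨x, s⟩, y⟩ ⟨a, b, d, f⟩
  have r := le_abs_self R
  have r0 := abs_nonneg R
  dsimp only at b d f
  rcases le_total s (1 / 4) with u | u
  · refine .inl ⟨⟨a.1, ?_, ?_, ?_⟩, u⟩
    · change |4 * s| ≤ _
      rw [abs_mul, abs_of_pos (by norm_num : (0 : ℝ) < 4)]; linarith
    · rw [(lo h u).2] at d
      exact d.trans (by linarith)
    · exact f.trans (by linarith)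
  · refine .inr ⟨⟨⟨trivial, u, (le_abs_self s).trans b⟩, mem_closedBall_zero_iff.2 f⟩, ?_⟩
    have t := (th_bd h k u a).trans (max_le_max_left 1 d)
    rw [Rg.θ, th, inv_mul_le_iff₀ (sub_pos.2 a.2), ← div_le_iff₀ (by positivity)] at t
    exact le_sub_comm.1 t

theorem bd (k : G.Cst R₀ T T' η R₁) (ho : ((x, s), y) ∈ (G.rd T T' η).O₁) :
    ‖(G.rd T T' η).h₁ ((x, s), y) - G.p₁ x ((G.rd T T' η).h₁ ((x, s), y))‖ ≤
      M + c * ‖y - G.p₁ x y‖ := by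
  rcases le_total s (1 / 4) with u | u
  · rw [(lo h u).2]; exact h.hp.bd _ ho.1
  · rw [h1_eq, r_S h]
    exact (h.db _ (it_mem h _ (Wt_mem h k u ho) T')).trans
      (le_add_of_nonneg_right (mul_nonneg ((norm_nonneg _).trans (h.Cn x)) (norm_nonneg _)))

theorem ex (k : G.Cst R₀ T T' η R₁) (ho : ((x, s), y) ∈ (G.rd T T' η).O₁) (hR : R₁ ≤ ‖G.p₁ x y‖) :
    (1 + κ) * ‖G.p₁ x y‖ ≤ ‖G.p₁ x ((G.rd T T' η).h₁ ((x, s), y))‖ := by
  have a := h.hp.ex _ ho.1 (k.R0.trans hR)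
  rcases le_total s (1 / 4) with u | u
  · rwa [(lo h u).2]
  dsimp only at a
  rw [(h.en x (4 * s) y (by linarith)).2] at a
  have a0 : R₁ ≤ ‖G.p₁ x (G.f (x, y))‖ := by nlinarith [h.hκ, norm_nonneg (G.p₁ x y)]
  have b : ‖G.p₁ x (G.f (x, y))‖ ≤ ‖G.p₁ x (G.Yt T T' ((x, s), y))‖ := by
    rw [Yt_f h u]; exact it_p h _ (h.fD (x, y)) (k.R0.trans a0) T
  rcases le_total s (3 / 4) with v | v
  · have l := lf_ge ho
    rw [h1_eq, p_S h, norm_smul, Real.norm_of_nonneg (by linarith), Wt_lo v]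
    exact ((a.trans b).trans (it_p h _ (Yt_mem h u) (k.R0.trans (a0.trans b)) T')).trans
      (le_mul_of_one_le_left (norm_nonneg _) l)
  · linarith [(hi h k v ho).1, h.pn x (G.Yt T T' ((x, s), y)), k.Rr, h.hr]

theorem top (k : G.Cst R₀ T T' η R₁) (hs : 1 ≤ s) :
    (((x, s), y) ∈ (G.rd T T' η).O₁ ↔ (x, y) ∈ (G.rd T T' η).Ov) ∧ ((x, y) ∈ (G.rd T T' η).Ov →
      (G.rd T T' η).h₁ ((x, s), y) = (G.rd T T' η).u (x, (G.rd T T' η).v (x, y))) := by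
  have a : ((x, s), y) ∈ (G.rd T T' η).O₁ ↔ (x, y) ∈ (G.rd T T' η).Ov := by
    refine (and_iff_right (h.en x (4 * s) y (by linarith)).1).trans ?_
    dsimp only
    rw [cl_of_ge (by linarith), one_mul, chi_lt k.η0, Yt_hi h (by linarith)]; rfl
  refine ⟨a, fun o => ?_⟩
  have w := Wt_mem h k (by linarith) (a.2 o)
  have e : G.ι x ((G.rd T T' η).v (x, y)) =
      G.θ T T' η ((x, s), y) • G.P x (G.Yt T T' ((x, s), y)) := by
    rw [Rg.θ, cl_of_ge (by linarith), Yt_hi h (by linarith)]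
    exact map_smul _ _ _
  rw [h1_eq, it_ge h w T' (by dsimp only; rw [cl_of_ge (by linarith)]; simp), lf, Rg.Wt,
    cl_of_ge (by linarith)]
  change _ = G.S x (G.mx (G.ι x _)) (G.fi T' (x, (G.mx (G.ι x _))⁻¹ • G.ι x _))
  rw [e, smul_smul, ← div_eq_inv_mul]
  congr 3
  · simp [Rg.m]
  · change _ = (_ / G.m T T' η ((x, s), y)) • _
    module
end Ha

/-- **H1A** -/
theorem h1a : H1A := by
  intro X E₁ E₂ _ _ _ _ _ _ _ _ _ G c κ R₀ M h T T' η R₁ k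
  refine ⟨⟨?_, Ha.ct_h h, Ha.cp h k, fun w o => Ha.bd h k o, fun w o a => ?_, fun x s y a => ?_⟩,
    fun x s y => Ha.top h k, fun x s y => Ha.lo h, fun x s y a => ?_⟩
  · exact (Ha.ct_c h).isOpen_inter_preimage (h.hp.op.preimage (by fun_prop)) isOpen_Iio
  · exact (mul_le_mul_of_nonneg_right (add_le_add_right (min_le_left _ _) 1)
      (norm_nonneg _)).trans (Ha.ex h k o a)
  · obtain ⟨u, v⟩ := h.hp.ln x (4 * s) y (by linarith)
    exact ⟨(Ha.lo h (by linarith)).1.2 u, (Ha.lo h (by linarith)).2.trans v⟩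
  · obtain ⟨u, v⟩ := h.en x s y a
    obtain ⟨u', v'⟩ := h.en x 1 y le_rfl
    exact ⟨iff_of_true u u', v.trans v'.symm⟩

end Crest.Agent.N218.Rd
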