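import Crest.Agent.N218.Rd.Defs
import Crest.Agent.N218.Pm.Kit1
import Crest.Agent.N218.Pm.Adm0

/-! Row 218, RED (helper79): the tail of `h₁` has only the zero orbit and is linear near it. -/

set_option autoImplicit false
set_option linter.unusedVariables false
set_option linter.unusedSectionVars false
open Set Topology
open scoped InnerProductSpace

noncomputable section

namespace Crest.Agent.N218.Rd
open Pm

namespace Hb
variable {X E₁ E₂ : Type} [TopologicalSpace X] [NormedAddCommGroup E₁] [InnerProductSpace ℝ E₁]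
  [NormedAddCommGroup E₂] [InnerProductSpace ℝ E₂] {G : Rg X E₁ E₂} {c κ R₀ M : ℝ}

theorem chi_zero {η t : ℝ} (h : 0 < η) (e : -η / 2 ≤ t) : χ η t = 0 :=
  cl_of_le (by rw [sub_nonpos, div_le_one h]; linarith)
theorem chi_one {η t : ℝ} (h : 0 < η) (e : t ≤ -η) : χ η t = 1 :=
  cl_of_ge (by rw [le_sub_iff_add_le, le_div_iff₀ h]; linarith)
theorem cl_pos {t : ℝ} (h : cl t ≠ 0) : 0 < t := lt_of_not_ge fun e => h (cl_of_le e)

theorem nn_of_sym {L : E₁ →L[ℝ] E₁} (h : ∀ y y', ⟪L y, y'⟫_ℝ = ⟪y, L y'⟫_ℝ) : Nn L :=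
  fun c z j a b => Ad.sym_seq (M := c • (L : E₁ →ₗ[ℝ] E₁)) (a := 1)
    (fun y y' => by simp [inner_smul_left, inner_smul_right, h]) one_ne_zero
    (fun i => by simpa using a i) b

section ok
variable (h : G.Ok c κ R₀ M)
include h

theorem it_D (t : ℝ) {w : X × E₁} (hw : w ∈ G.Dm) (n : ℕ) :
    (w.1, G.it t w n) ∈ G.Dm ∧ G.g (w.1, G.it t w n) ≤ G.g w := by
  induction n with
  | zero => exact ⟨hw, le_rfl⟩
  | succ n ih => exact ⟨h.jD _ (cl_mem _) _ ih.1, (h.jg _ (cl_mem _) _ ih.1).trans ih.2⟩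

theorem it_fi {t : ℝ} {w : X × E₁} (hw : w ∈ G.Dm) {n : ℕ} (e : (n : ℝ) ≤ t) :
    G.it t w n = G.fi n w := by
  induction n with
  | zero => rfl
  | succ n ih =>
    push_cast at e
    rw [Rg.it, cl_of_ge (by linarith), h.j1 _ (it_D h t hw n).1, ih (by linarith), Rg.fi, Rg.fi,
      Function.iterate_succ_apply']

theorem P_sym (x : X) (y y' : E₁) : ⟪G.P x y, y'⟫_ℝ = ⟪y, G.P x y'⟫_ℝ := by
  change ⟪G.ι x (G.ι' x y), y'⟫_ℝ = ⟪y, G.ι x (G.ι' x y')⟫_ℝ
  rw [h.ad, real_inner_comm (G.ι x _), h.ad, real_inner_comm]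
theorem P_P (x : X) (y : E₁) : G.P x (G.P x y) = G.P x y := h.iii x _
theorem P_Q (x : X) (y : E₁) : G.P x (y - G.P x y) = 0 := by rw [map_sub, P_P h, sub_self]
theorem i_Q (x : X) (y : E₁) : G.ι' x (y - G.P x y) = 0 := by
  rw [← inner_self_eq_zero (𝕜 := ℝ), ← h.ad]
  exact (congrArg (fun v => ⟪v, _⟫_ℝ) (P_Q h x y)).trans (inner_zero_left _)
theorem H_P (x : X) (y : E₁) : G.H x (G.P x y) = G.P x (G.H x y) := h.HP x y
theorem norm_PQ (x : X) (y : E₁) : ‖G.P x y‖ ≤ ‖y‖ ∧ ‖y - G.P x y‖ ≤ ‖y‖ := by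
  have a := norm_add_sq_real (G.P x y) (y - G.P x y)
  rw [add_sub_cancel, P_sym h, P_Q h, inner_zero_right] at a
  exact ⟨abs_le_of_sq_le_sq' (by nlinarith [sq_nonneg ‖y - G.P x y‖]) (norm_nonneg _) |>.2,
    abs_le_of_sq_le_sq' (by nlinarith [sq_nonneg ‖G.P x y‖]) (norm_nonneg _) |>.2⟩

theorem q_split (x : X) (y : E₁) (a b : ℝ) :
    ⟪G.H x (a • (y - G.P x y) + b • G.P x y), a • (y - G.P x y) + b • G.P x y⟫_ℝ =
      a ^ 2 * ⟪G.H x (y - G.P x y), y - G.P x y⟫_ℝ + b ^ 2 * ⟪G.H x (G.P x y), G.P x y⟫_ℝ := by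
  have e1 : ⟪G.H x (G.P x y), y - G.P x y⟫_ℝ = 0 := by
    rw [H_P h, P_sym h, P_Q h, inner_zero_right]
  have e2 : ⟪G.H x (y - G.P x y), G.P x y⟫_ℝ = 0 := by rw [h.Hs, real_inner_comm, e1]
  generalize y - G.P x y = u at *
  simp only [map_add, map_smul, inner_add_left, inner_add_right, real_inner_smul_left,
    real_inner_smul_right, e1, e2]
  ring

theorem q_le (x : X) (y : E₁) {a b : ℝ} (a0 : 0 ≤ a) (a1 : a ≤ 1) (b1 : 1 ≤ b) :
    ⟪G.H x (a • (y - G.P x y) + b • G.P x y), a • (y - G.P x y) + b • G.P x y⟫_ℝ ≤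
      ⟪G.H x y, y⟫_ℝ := by
  have e := q_split h x y 1 1
  rw [one_smul, one_smul, sub_add_cancel] at e
  have p := h.Hp x _ (i_Q h x y)
  have n : ⟪G.H x (G.P x y), G.P x y⟫_ℝ ≤ 0 :=
    (h.Hm x _).trans (neg_nonpos.2 (mul_nonneg h.ha.le (sq_nonneg _)))
  rw [q_split h, e]
  nlinarith [mul_nonneg p (show 0 ≤ 1 - a ^ 2 by nlinarith),
    mul_nonneg (neg_nonneg.2 n) (show 0 ≤ b ^ 2 - 1 by nlinarith)]

theorem p_S (x : X) (l : ℝ) (y : E₁) : G.p₁ x (G.S x l y) = l • G.p₁ x y := by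
  rw [Rg.S, map_add, map_smul, h.pi]; module

variable {T T' : ℕ} {η R₁ : ℝ}

theorem step (k : G.Cst R₀ T T' η R₁) {x : X} {s : ℝ} (hs : 1 / 4 ≤ s) {y : E₁}
    (ho : ((x, s), y) ∈ (G.rd T T' η).O₁) :
    R₁ ≤ ‖G.p₁ x ((G.rd T T' η).h₁ ((x, s), y))‖ ∨ ((x, (G.rd T T' η).h₁ ((x, s), y)) ∈ G.Dm ∧
      G.g (x, (G.rd T T' η).h₁ ((x, s), y)) ≤ G.g (x, G.f (x, y))) := by
  have o : cl (4 * s - 2) * χ η (G.g (x, G.Yt T T' ((x, s), y))) < 1 := ho.2
  have eY : G.Yt T T' ((x, s), y) = G.it ((T + T') * cl (4 * s - 1)) (x, G.f (x, y)) T := by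
    rw [Rg.Yt, (h.en x (4 * s) y (by linarith)).2]
  have f0 : (x, G.f (x, y)) ∈ G.Dm := h.fD (x, y)
  have hY := it_D h ((T + T') * cl (4 * s - 1)) f0 T
  dsimp only at hY
  rw [← eY] at hY
  have eθ : G.θ T T' η ((x, s), y) =
    (1 - cl (4 * s - 2) * χ η (G.g (x, G.Yt T T' ((x, s), y))))⁻¹ := rfl
  have em : G.m T T' η ((x, s), y) =
    max 1 (‖G.θ T T' η ((x, s), y) • G.P x (G.Yt T T' ((x, s), y))‖ / G.r) := rfl
  have eW : G.Wt T T' η ((x, s), y) =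
      (1 - cl (4 * s - 3)) • (G.Yt T T' ((x, s), y) - G.P x (G.Yt T T' ((x, s), y))) +
      (1 + cl (4 * s - 3) * (G.θ T T' η ((x, s), y) / G.m T T' η ((x, s), y) - 1)) •
        G.P x (G.Yt T T' ((x, s), y)) := by
    rw [Rg.Wt]; module
  change R₁ ≤ ‖G.p₁ x (G.S x _ (G.it _ (x, G.Wt T T' η ((x, s), y)) T'))‖ ∨
    ((x, G.S x _ (G.it _ (x, G.Wt T T' η ((x, s), y)) T')) ∈ G.Dm ∧
      G.g (x, G.S x _ (G.it _ (x, G.Wt T T' η ((x, s), y)) T')) ≤ _)
  dsimp only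
  generalize G.Wt T T' η ((x, s), y) = W at *
  generalize G.m T T' η ((x, s), y) = m at *
  generalize G.θ T T' η ((x, s), y) = θ at *
  generalize G.Yt T T' ((x, s), y) = Y at *
  have b0 := cl_mem (4 * s - 2)
  have c0 := cl_mem (4 * s - 3)
  have x0 : 0 ≤ cl (4 * s - 2) * χ η (G.g (x, Y)) := mul_nonneg b0.1 (cl_mem _).1
  have θ1 : 1 ≤ θ := eθ ▸ one_le_inv_iff₀.2 ⟨by linarith, by linarith⟩
  have m1 : 1 ≤ m := em ▸ le_max_left _ _
  have key : ((x, W) ∈ G.Dm ∧ G.g (x, W) ≤ G.g (x, Y)) ∧ cl (4 * s - 3) * m ≤ cl (4 * s - 3) * θ := by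
    by_cases γ0 : cl (4 * s - 3) = 0
    · rw [γ0] at eW ⊢
      have : W = Y := by rw [eW]; module
      exact ⟨by rw [this]; exact ⟨hY.1, le_rfl⟩, by simp⟩
    have s3 := cl_pos γ0
    rw [cl_of_ge (by linarith), one_mul] at o
    rw [cl_of_ge (by linarith), mul_one, it_fi h f0 (by simp)] at eY
    have Yr : ‖Y‖ < G.r := by
      rcases k.di _ f0 with e | e
      · exact eY ▸ e
      · rw [← eY] at e
        exact absurd (chi_one k.η0 e) o.ne
    obtain ⟨n1, n2⟩ := norm_PQ h x Y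
    have n0 := norm_nonneg (G.P x Y)
    rw [norm_smul, Real.norm_of_nonneg (by linarith)] at em
    have mθ : m ≤ θ := em ▸ max_le θ1 ((div_le_iff₀ h.hr).2 (by nlinarith))
    have m2 : θ * ‖G.P x Y‖ ≤ m * G.r := (div_le_iff₀ h.hr).1 (em ▸ le_max_right _ _)
    have d1 : 1 ≤ θ / m := (one_le_div (by linarith)).2 mθ
    have d2 : θ / m * ‖G.P x Y‖ ≤ G.r := by
      rw [div_mul_eq_mul_div, div_le_iff₀ (by linarith)]; linarith
    have b1 : 1 ≤ 1 + cl (4 * s - 3) * (θ / m - 1) := by nlinarith [c0.1]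
    have b2 : 1 + cl (4 * s - 3) * (θ / m - 1) ≤ θ / m := by nlinarith [c0.2]
    have nW : ‖W‖ ≤ 2 * G.r := by
      rw [eW]
      refine (norm_add_le _ _).trans ?_
      rw [norm_smul, norm_smul, Real.norm_of_nonneg (sub_nonneg.2 c0.2),
        Real.norm_of_nonneg (by linarith)]
      nlinarith [c0.1, norm_nonneg (Y - G.P x Y)]
    refine ⟨⟨(h.ln x W nW).1, ?_⟩, mul_le_mul_of_nonneg_left mθ c0.1⟩
    rw [(h.ln x W nW).2.1, (h.ln x Y (by linarith [h.hr])).2.1, eW]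
    linarith [q_le h x Y (sub_nonneg.2 c0.2) (by linarith [c0.1]) b1]
  have hZ := it_D h ((T + T') * cl (4 * s - 1) - T) key.1.1 T'
  by_cases e : θ = 1
  · have : (1 - cl (4 * s - 3)) * θ + cl (4 * s - 3) * m = 1 := by nlinarith [key.2, c0.1]
    rw [this, Rg.S, sub_self, zero_smul, add_zero]
    exact .inr ⟨hZ.1, hZ.2.trans (key.1.2.trans hY.2)⟩
  · have n : cl (4 * s - 2) * χ η (G.g (x, Y)) ≠ 0 := fun z => e (by rw [eθ, z]; simp)
    have s2 := cl_pos (left_ne_zero_of_mul n)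
    have g2 : G.g (x, Y) < -η / 2 := lt_of_not_ge fun z => right_ne_zero_of_mul n (chi_zero k.η0 z)
    have := k.es _ key.1.1 (key.1.2.trans g2.le)
    rw [cl_of_ge (t := 4 * s - 1) (by linarith), it_fi h key.1.1 (by simp), p_S h, norm_smul]
    have l1 : 1 ≤ (1 - cl (4 * s - 3)) * θ + cl (4 * s - 3) * m := by nlinarith [c0.1, c0.2]
    rw [Real.norm_of_nonneg (by linarith)]
    exact .inl (this.trans (le_mul_of_one_le_left (norm_nonneg _) l1))

end ok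

/-- symmetric operators that commute with `H` and `P` -/
structure Sy (G : Rg X E₁ E₂) (x : X) (L : E₁ →L[ℝ] E₁) : Prop where
  sym : ∀ y y', ⟪L y, y'⟫_ℝ = ⟪y, L y'⟫_ℝ
  cH : ∀ y, L (G.H x y) = G.H x (L y)
  cP : ∀ y, L (G.P x y) = G.P x (L y)

theorem Sy.mul (h : G.Ok c κ R₀ M) {x : X} {L : E₁ →L[ℝ] E₁} (s : Sy G x L) (a b d : ℝ) :
    Sy G x (a • L + b • (G.H x).comp L + d • (G.P x).comp L) where
  sym y y' := by
    simp only [add_apply, smul_apply,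
      ContinuousLinearMap.comp_apply, inner_add_left, inner_add_right, real_inner_smul_left,
      real_inner_smul_right]
    rw [h.Hs, P_sym h, s.sym, s.sym, s.sym, s.cH, s.cP]
  cH y := by simp [s.cH, H_P h]
  cP y := by simp [s.cP, H_P h]

theorem it_lin (h : G.Ok c κ R₀ M) {x : X} {L : E₁ →L[ℝ] E₁} (s : Sy G x L) {K : ℝ} (K0 : 0 ≤ K)
    (hL : ∀ y, ‖L y‖ ≤ K * ‖y‖) (t : ℝ) (n : ℕ) : ∃ L', Sy G x L' ∧
      (∀ y, ‖L' y‖ ≤ 2 ^ n * K * ‖y‖) ∧
      ∀ y, 2 ^ n * K * ‖y‖ ≤ 2 * G.r → G.it t (x, L y) n = L' y := by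
  induction n with
  | zero => exact ⟨L, s, by simpa using hL, fun _ _ => rfl⟩
  | succ n ih =>
    obtain ⟨L', a, b, d⟩ := ih
    have m := cl_mem (t - n)
    have e : ∀ y, ((1 : ℝ) • L' + (-cl (t - n)) • (G.H x).comp L' + (0 : ℝ) • (G.P x).comp L') y =
      L' y - cl (t - n) • G.H x (L' y) := fun y => by simp [sub_eq_add_neg]
    refine ⟨_, a.mul h 1 (-cl (t - n)) 0, fun y => ?_, fun y hy => ?_⟩
    · rw [e]
      refine (norm_sub_le _ _).trans ?_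
      rw [norm_smul, Real.norm_of_nonneg m.1, pow_succ]
      nlinarith [b y, h.Hn x (L' y), m.2, norm_nonneg (L' y), norm_nonneg (G.H x (L' y))]
    · have p : 0 ≤ 2 ^ n * K * ‖y‖ := by positivity
      rw [pow_succ] at hy
      rw [Rg.it, d y (by linarith), e]
      exact (h.ln x _ (by linarith [b y])).2.2 _ m

end Hb
open Hb

theorem h1b : H1B := by
  intro X E₁ E₂ _ _ _ _ _ _ _ _ _ G c κ R₀ M h T T' η R₁ k a
  constructor
  · intro x s hs n y ho hy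
    have e : ∀ i, y (i + 1) = (G.rd T T' η).h₁ ((x, s), y i) := fun i => by
      rw [hy, add_sub_cancel_right]
    have κ0 : 0 < G.κ' κ := lt_min h.hκ (lt_min one_pos (lt_min h.ha (sub_pos.2 h.hμ)))
    have b : ∀ i, ‖G.p₁ x (y i)‖ < R₁ := by
      obtain ⟨i, hi⟩ := Finite.exists_max fun i => ‖G.p₁ x (y i)‖
      refine fun j => (hi j).trans_lt (lt_of_not_ge fun u => ?_)
      have v : (1 + G.κ' κ) * ‖G.p₁ x (y i)‖ ≤ ‖G.p₁ x ((G.rd T T' η).h₁ ((x, s), y i))‖ :=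
        a.hp.ex _ (ho i) u
      rw [← e] at v
      nlinarith [hi (i + 1), k.R1]
    have d : ∀ i, (x, y (i + 1)) ∈ G.Dm ∧ G.g (x, y (i + 1)) ≤ G.g (x, G.f (x, y i)) := fun i => by
      have := step h k hs (ho i)
      rw [← e] at this
      exact this.resolve_left (b _).not_ge
    have dm : ∀ i, (x, y i) ∈ G.Dm := fun i => by simpa using (d (i - 1)).1
    have le : ∀ i, G.g (x, y (i + 1)) ≤ G.g (x, y i) := fun i => (d i).2.trans (by
      have := h.jg 1 ⟨zero_le_one, le_rfl⟩ _ (dm i)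
      rwa [h.j1 _ (dm i)] at this)
    have eq := (Finset.sum_eq_sum_iff_of_le (s := Finset.univ) fun i _ => le i).1
      (Equiv.sum_comp (Equiv.addRight 1) fun i => G.g (x, y i))
    funext i
    by_contra u
    exact ((d i).2.trans_lt (h.gf _ (dm i) u)).ne (eq i (Finset.mem_univ _))
  · have μ0 : 0 < min G.r (min 1 η) := lt_min h.hr (lt_min one_pos k.η0)
    refine ⟨min G.r (min 1 η) / (2 ^ T' * (2 * (2 ^ T * 2))), by positivity, fun x s hs => ?_⟩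
    have s0 : Sy G x 1 := ⟨fun _ _ => rfl, fun _ => rfl, fun _ => rfl⟩
    obtain ⟨L0, a0, b0, d0⟩ := it_lin h s0 zero_le_one (fun y => by simp) 1 1
    simp only [pow_one, mul_one] at b0 d0
    obtain ⟨L1, a1, b1, d1⟩ := it_lin h a0 zero_le_two b0 ((T + T') * cl (4 * s - 1)) T
    have c0 := cl_mem (4 * s - 3)
    have e2 : ∀ y, ((1 - cl (4 * s - 3)) • L1 + (0 : ℝ) • (G.H x).comp L1 +
        cl (4 * s - 3) • (G.P x).comp L1) y =
        L1 y - cl (4 * s - 3) • (L1 y - G.P x (L1 y)) := fun y => by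
      simp only [add_apply, smul_apply,
        ContinuousLinearMap.comp_apply]
      module
    obtain ⟨L3, a3, b3, d3⟩ := it_lin h (a1.mul h (1 - cl (4 * s - 3)) 0 (cl (4 * s - 3)))
      (K := 2 * (2 ^ T * 2)) (by positivity) (fun y => by
        rw [e2]
        refine (norm_sub_le _ _).trans ?_
        rw [norm_smul, Real.norm_of_nonneg c0.1]
        nlinarith [b1 y, (norm_PQ h x (L1 y)).2, c0.2, norm_nonneg (L1 y - G.P x (L1 y))])
      ((T + T') * cl (4 * s - 1) - T) T'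
    refine ⟨L3, nn_of_sym a3.sym, fun y hy => ?_⟩
    rw [lt_div_iff₀ (by positivity), lt_min_iff, lt_min_iff] at hy
    have n0 := norm_nonneg y
    have p1 : (1 : ℝ) ≤ 2 ^ T := one_le_pow₀ one_le_two
    have p2 : (1 : ℝ) ≤ 2 ^ T' := one_le_pow₀ one_le_two
    have q1 : 2 * ‖y‖ ≤ 2 ^ T * 2 * ‖y‖ := by nlinarith
    have q2 : 2 ^ T * 2 * ‖y‖ ≤ ‖y‖ * (2 ^ T' * (2 * (2 ^ T * 2))) := by
      nlinarith [mul_nonneg (sub_nonneg.2 p2) (show 0 ≤ 2 ^ T * ‖y‖ by positivity)]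
    have r0 := h.hr
    have e0 : G.f (x, y) = L0 y := by
      rw [← d0 y (by linarith [hy.1])]
      exact (it_fi h (h.ln x y (by linarith [hy.1])).1 (n := 1) (by simp)).symm
    have en := h.en x (4 * s) y (by linarith)
    have eY : G.Yt T T' ((x, s), y) = L1 y := by
      rw [Rg.Yt, en.2, e0]; exact d1 y (by linarith [hy.1])
    have nY := b1 y
    have n1 := norm_nonneg (L1 y)
    have x0 : χ η (G.g (x, L1 y)) = 0 := chi_zero k.η0 (by
      rw [(h.ln x _ (by linarith [hy.1])).2.1]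
      have u := abs_real_inner_le_norm (G.H x (L1 y)) (L1 y)
      have v := neg_abs_le ⟪G.H x (L1 y), L1 y⟫_ℝ
      have w : ‖L1 y‖ * ‖L1 y‖ ≤ 1 * η :=
        mul_le_mul (by linarith [hy.2.1]) (by linarith [hy.2.2]) n1 zero_le_one
      nlinarith [h.Hn x (L1 y), k.η0])
    have eθ : G.θ T T' η ((x, s), y) = 1 := by rw [Rg.θ, th, eY, x0]; simp
    have em : G.m T T' η ((x, s), y) = 1 := by
      rw [Rg.m, eθ, one_smul, eY]
      exact max_eq_left ((div_le_one r0).2 (by linarith [(norm_PQ h x (L1 y)).1, hy.1]))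
    refine ⟨⟨en.1, ?_⟩, ?_⟩
    · rw [eY, x0]; simp
    · change G.S x _ (G.it _ (x, G.Wt T T' η ((x, s), y)) T') = _
      have := d3 y (by linarith [hy.1])
      rw [e2] at this
      rw [Rg.Wt, eθ, em, eY, Rg.S]
      simp only [mul_one, sub_add_cancel, sub_self, div_one, mul_zero, zero_smul, add_zero]
      exact this

end Crest.Agent.N218.Rd
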