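import Crest.Agent.N218.Pm.Kit2

/-!
# Row 218, RED (helper17): stabilised families, uniform absence of free zeros
-/

set_option autoImplicit false
set_option linter.unusedVariables false
set_option linter.unusedSectionVars false

open Set Topology unitInterval

noncomputable section

namespace Crest.Agent.N218.Pm.Tl

variable {B : Type} [TopologicalSpace B] {k : ℕ} {E E' : Type} [NormedAddCommGroup E]
  [NormedSpace ℝ E] [NormedAddCommGroup E'] [NormedSpace ℝ E']

variable (E') in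
/-- stabilisation of a family with normal map `1` -/
def stM (A : PM B k E) : PM B k (E × E') :=
  ⟨{w | (w.1, s1 w.2) ∈ A.O}, fun w => pr (A.P (w.1, s1 w.2)) (s2 w.2), fun _ => 1⟩

theorem n_s1 (w : V k (E × E')) : ‖s1 w‖ ≤ ‖w‖ :=
  (pi_norm_le_iff_of_nonneg (norm_nonneg _)).2 fun i =>
    (norm_fst_le (w i)).trans (norm_le_pi_norm w i)
theorem n_s2 (w : V k (E × E')) : ‖s2 w‖ ≤ ‖w‖ :=
  (pi_norm_le_iff_of_nonneg (norm_nonneg _)).2 fun i =>
    (norm_snd_le (w i)).trans (norm_le_pi_norm w i)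
theorem n_pr0 (y : V k E) : ‖pr y (0 : V k E')‖ = ‖y‖ :=
  le_antisymm ((pi_norm_le_iff_of_nonneg (norm_nonneg _)).2 fun i => by
    simpa [pr] using norm_le_pi_norm y i) (n_s1 (pr y (0 : V k E')))
theorem mn_pr (y : V k E) (z : V k E') : mn (pr y z) = pr (mn y) (mn z) := by
  rw [← pr_s (mn (pr y z)), s1_mn, s2_mn]; rfl
theorem nrm_pr (t : ℝ) (y : V k E) (z : V k E') :
    pr y z - t • mn (pr y z) = pr (y - t • mn y) (z - t • mn z) := by
  rw [mn_pr]; rfl
theorem ct_pr0 : Continuous fun x : B × V k E => (x.1, pr x.2 (0 : V k E')) := by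
  unfold pr; fun_prop
theorem pr0_sh (y : V k E) : pr (sh k E y) (0 : V k E') = sh k _ (pr y 0) := rfl

theorem ok_of_st {A : PM B k E} (h : (stM E' A).Ok) (hn : ∀ b, A.n b = 1) : A.Ok where
  op := h.op.preimage ct_pr0
  inv x m := h.inv (x.1, pr x.2 0) m
  ct := by
    have c : Continuous (s1 : V k (E × E') → V k E) := by unfold s1; fun_prop
    exact c.comp_continuousOn (h.ct.comp ct_pr0.continuousOn fun x m => m)
  eq x m := congrArg s1 (h.eq (x.1, pr x.2 0) m)
  pp K hK R := by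
    have c : Continuous fun x : B × V k (E × E') => (x.1, s1 x.2) := by unfold s1; fun_prop
    convert (h.pp K hK R).image c using 1
    ext x
    constructor
    · rintro ⟨a, b, d⟩
      exact ⟨(x.1, pr x.2 0), ⟨a, b, (n_pr0 _).trans_le d⟩, rfl⟩
    · rintro ⟨w, ⟨a, b, d⟩, rfl⟩
      exact ⟨a, b, (n_s1 ((stM E' A).P w)).trans d⟩
  nc := by rw [show A.n = fun _ => 1 from funext hn]; exact continuous_const
  ne b y := by rw [hn]; rfl
  ni b y := by rw [hn]; exact id

theorem noz_of_st {A : PM B k E} {δ : ℝ} {b : B} (h : (stM E' A).NoZ δ b) (hn : A.n b = 1) :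
    A.NoZ δ b := by
  intro y t ht hd m e
  have e0 : mn (pr y (0 : V k E')) = pr (mn y) 0 := by rw [mn_pr, mn_zero]
  have := h (pr y 0) t ht (by rwa [e0, n_pr0]) (by rw [nrm_pr]; exact m) (by
    rw [nrm_pr, e0]
    rw [hn] at e
    funext i
    exact Prod.ext (congrFun e i) (by simp [stM, pr, s2]))
  rw [e0] at this
  exact (pr_eq_zero.1 this).1

theorem z_st {A : PM B k E} {τ : B × V k (E × E') → ℝ} {x : B × V k (E × E')}
    (h : x ∈ ((stM E' A).F τ).Z) : s2 x.2 = 0 := by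
  funext i
  have := congrArg Prod.snd (congrFun h.2 i)
  simpa [PM.F, stM, pr, s2] using this

variable [FiniteDimensional ℝ E] [FiniteDimensional ℝ E'] [T2Space B]

/-- **stabilisation commutes with the free part** -/
theorem F_st {A : PM B k E} (h : (stM E' A).Ok) (hn : ∀ b, A.n b = 1) {δ : ℝ} (hδ : 0 < δ)
    (hc : (stM E' A).Cs δ) : ((stM E' A).F (tau δ)).Eqv ((A.F (tau δ)).st E') := by
  let τ : (B × I) × V k (E × E') → ℝ := fun x => tau δ (x.1, pr (s1 x.2) ((x.1.2 : ℝ) • s2 x.2))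
  have ct : Continuous τ := (tau_ok hδ).ct.comp (by unfold pr s1 s2; fun_prop)
  have o1 := PM.fok h (tau_ok hδ) hc
  obtain ⟨K, hK, hc⟩ := hc
  have o : (((stM E' A).pull (Prod.fst : B × I → B)).F τ).Ok := by
    refine PM.fok0 (h.pull continuous_fst) ct
      (fun x => (tau_ok hδ).inv (x.1, pr (s1 x.2) ((x.1.2 : ℝ) • s2 x.2)))
      (hK.prod isCompact_univ) (half_pos hδ) (R := δ) fun x hx => ?_
    have z : s2 x.2 = 0 := z_st (A := A.pull Prod.fst) hx
    have e : τ x = tau δ (x.1.1, x.2) := by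
      simp only [τ]; rw [z, smul_zero, ← z, pr_s]; rfl
    have m : (x.1.1, x.2) ∈ ((stM E' A).F (tau δ)).Z := by
      have u := hx.1.2
      have v := hx.2
      simp only [PM.F, e] at u v
      exact ⟨⟨hx.1.1, u⟩, v⟩
    refine ⟨⟨by_contra fun n => (hc _ n).notMem (tau_ok hδ) m, mem_univ _⟩,
      le_of_not_gt fun n => hx.1.1 ?_, ?_⟩
    · have t0 : tau δ (x.1.1, x.2) = 0 := by
        refine max_eq_left ((min_le_right _ _).trans ?_)
        rw [sub_nonpos, div_le_one hδ]; linarith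
      have u := m.1.2
      have v := m.2
      simp only [PM.F, t0] at u v
      exact h.t0 u v
    · rw [e]
      rcases le_total δ ‖mn x.2‖ with l | l
      · rw [(tau_ok hδ).o (x.1.1, x.2) l]; simpa using hδ.le
      · have := (tau_ok (B := B) (E := E × E') (k := k) hδ).mem (x.1.1, x.2)
        rw [norm_smul, Real.norm_of_nonneg (by linarith [this.2])]
        nlinarith [this.1, norm_nonneg (mn x.2)]
  have e1 : τ ∘ (fun x : B × V k (E × E') => ((x.1, (1 : I)), x.2)) = tau δ := by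
    funext x; simp only [τ, Function.comp, Set.Icc.coe_one, one_smul, pr_s]; rfl
  have e0 : τ ∘ (fun x : B × V k (E × E') => ((x.1, (0 : I)), x.2)) =
      fun x => tau δ (x.1, s1 x.2) := by
    funext x
    simp only [τ, Function.comp, Set.Icc.coe_zero, zero_smul, tau]
    rw [mn_pr, mn_zero, n_pr0]
  have q : ((stM E' A).F fun x => tau δ (x.1, s1 x.2)).Eqv ((stM E' A).F (tau δ)) := by
    rw [← e0, ← e1]; exact o.eqv
  have o0 := q.ok.2 o1
  obtain ⟨r1, r2⟩ := o0.eqv_rs (N := {x | mn (s1 x.2) ≠ 0})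
    (isOpen_ne_fun (by unfold s1; fun_prop) continuous_const) (fun x m => sh_ne m) fun x m n => by
      refine m.1.1 ?_
      rw [← pr_s x.2, mn_pr, n, z_st m, mn_zero]; rfl
  refine q.symm.trans (r2.trans (r1.eqv_sm ⟨?_, fun x m => ?_⟩))
  · ext x
    have a : s1 (x.2 - (1 - tau δ (x.1, s1 x.2)) • mn x.2) =
        s1 x.2 - (1 - tau δ (x.1, s1 x.2)) • mn (s1 x.2) := by rw [← s1_mn]; rfl
    constructor
    · rintro ⟨⟨_, b⟩, c⟩
      exact ⟨c, a ▸ b⟩
    · rintro ⟨c, b⟩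
      exact ⟨⟨fun n => c (by rw [← s1_mn, n]; rfl), by rw [← a] at b; exact b⟩, c⟩
  · have a : s1 (x.2 - (1 - tau δ (x.1, s1 x.2)) • mn x.2) =
        s1 x.2 - (1 - tau δ (x.1, s1 x.2)) • mn (s1 x.2) := by rw [← s1_mn]; rfl
    simp only [Pb.rs, PM.F, Pb.st, stM, a, hn]
    funext i
    refine Prod.ext ?_ ?_
    · simp [pr, ← s1_mn, s1]
    · simp [pr, s2]

/-- local form near the zero section, without odd eigenvectors -/
def Lc (Q : PM B k E) (b : B) (ρ : ℝ) : Prop := ∃ A C : E →L[ℝ] E,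
  (∀ w, ‖w‖ < ρ → (b, w) ∈ Q.O → ∀ i, Q.P (b, w) i = w i - (A (w i) + C (w (i - 1)))) ∧
  ∀ (s : ℝ) (m : V k E), mn m = m → (∀ i, m i = s • (A (m i) + C (m (i - 1)))) → m = 0

/-- **uniform absence of free zeros** -/
theorem noz_unif {Q : PM B k E} (h : Q.Ok) (hn : ∀ b, Q.n b = 1) {K : Set B} (hK : IsCompact K)
    (hz : ∀ b ∈ K, ∀ w, (b, w) ∈ Q.O → Q.P (b, w) = 0 → w = 0) {ρ : ℝ} (hρ : 0 < ρ)
    (hl : ∀ b ∈ K, Lc Q b ρ) : ∃ δ₀ > 0, ∀ δ < δ₀, ∀ b ∈ K, Q.NoZ δ b := by
  have k1 := (h.pp K hK 1).inter_right (isClosed_le (continuous_const (y := ρ))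
    (continuous_snd.norm : Continuous fun x : B × V k E => ‖x.2‖))
  obtain ⟨ε, ε0, hε⟩ := k1.exists_forall_le' (f := fun x => ‖Q.P x‖) (a := 0)
    (h.ct.mono fun x m => m.1.1).norm fun x m => norm_pos_iff.2 fun n => by
      have := hz x.1 m.1.2.1 x.2 m.1.1 n
      have l : ρ ≤ ‖x.2‖ := m.2
      rw [this, norm_zero] at l; linarith
  refine ⟨min ε 1, lt_min ε0 one_pos, fun δ hδ b hb y t ht hd m e => ?_⟩
  rw [hn] at e
  rcases hd with rfl | hd
  · simp only [sub_self, zero_smul, sub_zero, add_zero] at m e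
    rw [hz b hb y m e, mn_zero]
  have p : ‖Q.P (b, y - (1 - t) • mn y)‖ ≤ δ := by
    rw [eq_neg_of_add_eq_zero_left e, norm_neg, norm_smul, Real.norm_of_nonneg (by linarith [ht.2])]
    change (1 - t) * ‖mn y‖ ≤ δ
    nlinarith [ht.1, norm_nonneg (mn y)]
  have l : ‖y - (1 - t) • mn y‖ < ρ := lt_of_not_ge fun n => by
    have := hε (b, y - (1 - t) • mn y) ⟨⟨m, hb, by linarith [min_le_right ε 1]⟩, n⟩
    linarith [min_le_left ε 1]
  obtain ⟨A, C, h1, h2⟩ := hl b hb
  refine h2 t (mn y) (mn_mn y) fun i => ?_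
  have g : ∀ i, y i = A ((y - (1 - t) • mn y) i) + C ((y - (1 - t) • mn y) (i - 1)) := fun i => by
    have := congrFun e i
    rw [Pi.add_apply, h1 _ l m i] at this
    change y i - (1 - t) • mn y i - _ + (1 - t) • mn y i = 0 at this
    rw [← sub_eq_zero, ← this]; abel
  have n := mn_nrm t y
  generalize y - (1 - t) • mn y = w at g n
  have n1 := congrFun n i
  have n2 := congrFun n (i - 1)
  rw [Pi.smul_apply] at n1 n2
  rw [smul_add, ← map_smul, ← map_smul, ← n1, ← n2]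
  simp only [mn, map_smul, map_sub]
  rw [g i, g (i + 2 ^ k), add_sub_right_comm i]
  module

end Crest.Agent.N218.Pm.Tl

end
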