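import Crest.Agent.N218.Rd.Defs
import Crest.Agent.N218.Rd.Tl0
import Crest.Agent.N218.Pm.Sq
import Crest.Agent.N218.Pm.Arc

/-!
# Row 218, RED (helper17): `TAIL`
-/

set_option autoImplicit false
set_option linter.unusedVariables false
set_option linter.unusedSectionVars false

open Set Topology

noncomputable section

namespace Crest.Agent.N218.Rd
open Pm Pm.Tl ContinuousLinearMap

namespace TlK

theorem nn_use {k : ℕ} {E : Type} [NormedAddCommGroup E] [NormedSpace ℝ E] {L : E →L[ℝ] E}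
    (h : Nn L) (hk : 1 ≤ k) {m : V k E} (hm : mn m = m) (c : ℝ)
    (e : ∀ i, m i = c • L (m (i - 1))) : m = 0 := by
  funext i
  obtain ⟨j, rfl⟩ := Nat.exists_eq_add_of_le' hk
  have := h c (fun n => m (i + n)) (2 ^ j) (fun n => by
    rw [e]; congr 3; push_cast; ring) (by
    have := congrFun (mn_eq_self.1 hm) i
    rw [tL_apply] at this
    simp only [Nat.cast_zero, add_zero]
    rw [← Pi.neg_apply, ← this]; congr 2; push_cast; ring)
  simpa using this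

theorem all_sh {k : ℕ} {p : Ix k → Prop} : (∀ i, p (i - 1)) ↔ ∀ i, p i :=
  ⟨fun h i => by simpa using h (i + 1), fun h i => h _⟩

theorem lc_mono {B : Type} [TopologicalSpace B] {k : ℕ} {E : Type} [NormedAddCommGroup E]
    [NormedSpace ℝ E] {Q Q' : PM B k E} {b b' : B} {ρ ρ' : ℝ} (h : Lc Q' b' ρ') (e : ρ ≤ ρ')
    (a : Sq.At Q b Q' b') : Lc Q b ρ := by
  obtain ⟨A, C, h1, h2⟩ := h
  exact ⟨A, C, fun w l m i => by rw [(a w).2 m]; exact h1 w (l.trans_le e) ((a w).1.1 m) i, h2⟩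

variable {X E₁ E₂ : Type} [TopologicalSpace X] [NormedAddCommGroup E₁] [InnerProductSpace ℂ E₁]
  [NormedAddCommGroup E₂] [InnerProductSpace ℂ E₂] {D : Data X E₁ E₂} {c κ R₀ M : ℝ}
  {O : Set ((X × ℝ) × E₁)} {ph : (X × ℝ) × E₁ → E₁} {k : ℕ}

theorem mn12 {m : V k (E₁ × E₂)} (h : mn m = m) : mn (s1 m) = s1 m ∧ mn (s2 m) = s2 m :=
  ⟨by rw [← s1_mn, h], by rw [← s2_mn, h]⟩
theorem z12 {m : V k (E₁ × E₂)} (h1 : s1 m = 0) (h2 : s2 m = 0) : m = 0 := by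
  rw [← pr_s m, h1, h2]; rfl
theorem n1 (w : V k (E₁ × E₂)) (i : Ix k) : ‖(w i).1‖ ≤ ‖w‖ :=
  (_root_.norm_fst_le _).trans (norm_le_pi_norm w i)
theorem n2 (w : V k (E₁ × E₂)) (i : Ix k) : ‖(w i).2‖ ≤ ‖w‖ :=
  (_root_.norm_snd_le _).trans (norm_le_pi_norm w i)

variable (h : (toRD D).Ok c κ R₀ M O ph)
include h

theorem u0 (x : X) : D.u (x, 0) = 0 ∧ D.v (x, 0) = 0 := by
  obtain ⟨ρ, ρ0, Λ, l⟩ := h.u.ln
  obtain ⟨U, W, -, -, -, -, a, b⟩ := l x
  exact ⟨(a 0 (by simpa)).trans U.map_zero, (b 0 (by simpa)).2.trans W.map_zero⟩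

theorem ex1 (x : X) {s : ℝ} (hs : 1 / 4 ≤ s) (w : V k (E₁ × E₂))
    (m : ((x, s), w) ∈ (D.a₁ k (sh k E₁)).O) (e : (D.a₁ k (sh k E₁)).P ((x, s), w) = 0) : w = 0 := by
  obtain ⟨e1, e2⟩ := pr_eq_zero.1 e
  exact z12 (h.t.z x s hs k (s1 w) (all_sh.1 m) fun i => sub_eq_zero.1 (congrFun e1 i)) e2

theorem ex2 (x : X) (s : ℝ) (w : V k (E₁ × E₂))
    (m : ((x, s), w) ∈ (D.a₂ k (sh k E₁)).O) (e : (D.a₂ k (sh k E₁)).P ((x, s), w) = 0) : w = 0 := by
  obtain ⟨e1, e2⟩ := pr_eq_zero.1 e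
  have m' : ∀ i, (x, s1 w i) ∈ D.Ov := all_sh.1 m
  have f2 : ∀ i, s2 w i = cl (s - 2) • D.v (x, s1 w (i - 1)) := fun i =>
    sub_eq_zero.1 (congrFun e2 i)
  have z : s1 w = 0 := h.t.z x 1 (by norm_num) k (s1 w)
    (fun i => (h.a.r₁ x 1 _ le_rfl).1.2 (m' i)) fun i => by
      refine (sub_eq_zero.1 (congrFun e1 i)).trans
        (Eq.trans ?_ ((h.a.r₁ x 1 _ le_rfl).2 (m' _)).symm)
      change D.u (x, _ • s2 w i + _ • D.v (x, s1 w (i - 1))) = D.u (x, D.v (x, s1 w (i - 1)))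
      rw [f2, smul_smul, Ar.cl_mul (by ring), ← add_smul, add_sub_cancel, one_smul]
  refine z12 z (funext fun i => ?_)
  rw [f2, z, Pi.zero_apply, (u0 h x).2, smul_zero]; rfl

theorem ex3 (x : X) (s : ℝ) (w : V k (E₁ × E₂))
    (m : ((x, s), w) ∈ (D.a₃ k (sh k E₂)).O) (e : (D.a₃ k (sh k E₂)).P ((x, s), w) = 0) : w = 0 := by
  obtain ⟨e1, e2⟩ := pr_eq_zero.1 e
  have f1 : ∀ i, s1 w i = (1 - cl (s - 3)) • D.u (x, s2 w i) := fun i =>
    sub_eq_zero.1 (congrFun e1 i)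
  have a : ∀ i, (1 - cl (s - 4)) • s1 w i + cl (s - 3) • D.u (x, s2 w i) = D.u (x, s2 w i) :=
    fun i => by
      have := Ar.cl_mul (s := s - 3) (t := s - 4) (by ring)
      rw [f1, smul_smul, ← add_smul,
        show (1 - cl (s - 4)) * (1 - cl (s - 3)) + cl (s - 3) = 1 by linear_combination this,
        one_smul]
  have m' : ∀ i, (x, D.u (x, s2 w i)) ∈ D.Ov := fun i => a i ▸ m i
  have z : s2 w = 0 := h.b.z x 0 k (s2 w)
    (fun i => (h.b.l₂ x 0 _ le_rfl).1.2 (m' i)) fun i => by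
      refine (sub_eq_zero.1 (congrFun e2 i)).trans
        (Eq.trans ?_ ((h.b.l₂ x 0 _ le_rfl).2 (m' _)).symm)
      exact congrArg (fun y => D.v (x, y)) (a (i - 1))
  refine z12 (funext fun i => ?_) z
  rw [f1, z, Pi.zero_apply, (u0 h x).1, smul_zero]; rfl

theorem ex4 (x : X) (s : ℝ) (w : V k (E₁ × E₂))
    (m : ((x, s), w) ∈ (D.a₄ k (sh k E₂)).O) (e : (D.a₄ k (sh k E₂)).P ((x, s), w) = 0) : w = 0 := by
  obtain ⟨e1, e2⟩ := pr_eq_zero.1 e
  exact z12 e1 (h.b.z x (s - 5) k (s2 w) m fun i => sub_eq_zero.1 (congrFun e2 i))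

theorem lc1 (hk : 1 ≤ k) : ∃ ρ > 0, ∀ x s, 1 / 4 ≤ s → Lc (D.a₁ k (sh k E₁)) (x, s) ρ := by
  obtain ⟨ρ, ρ0, l⟩ := h.t.ln
  refine ⟨ρ, ρ0, fun x s hs => ?_⟩
  obtain ⟨L, nn, a⟩ := l x s hs
  refine ⟨0, (L.comp (fst ℝ E₁ E₂)).prod 0, fun w hw m i => ?_, fun t m hm e => ?_⟩
  · refine Prod.ext ?_ (by simp [Data.a₁, pr, s2])
    have : D.h₁ ((x, s), (w (i - 1)).1) = L (w (i - 1)).1 := (a _ ((n1 w _).trans_lt hw)).2
    simp [Data.a₁, pr, s1, this]
  · exact z12 (nn_use nn hk (mn12 hm).1 t fun i => by simpa [s1] using congrArg Prod.fst (e i))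
      (funext fun i => by simpa [s2] using congrArg Prod.snd (e i))

theorem lc4 (hk : 1 ≤ k) : ∃ ρ > 0, ∀ x s, Lc (D.a₄ k (sh k E₂)) (x, s) ρ := by
  obtain ⟨ρ, ρ0, l⟩ := h.b.ln
  refine ⟨ρ, ρ0, fun x s => ?_⟩
  obtain ⟨L, nn, a⟩ := l x (s - 5)
  refine ⟨0, ContinuousLinearMap.prod 0 (L.comp (snd ℝ E₁ E₂)), fun w hw m i => ?_,
    fun t m hm e => ?_⟩
  · refine Prod.ext (by simp [Data.a₄, pr, s1]) ?_
    have : D.h₂ ((x, s - 5), (w (i - 1)).2) = L (w (i - 1)).2 := (a _ ((n2 w _).trans_lt hw)).2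
    simp [Data.a₄, pr, s2, this]
  · exact z12 (funext fun i => by simpa [s1] using congrArg Prod.fst (e i))
      (nn_use nn hk (mn12 hm).2 t fun i => by simpa [s2] using congrArg Prod.snd (e i))

theorem lc23 (hk : 1 ≤ k) : ∃ ρ > 0, ∀ x s, Lc (D.a₂ k (sh k E₁)) (x, s) ρ ∧
    Lc (D.a₃ k (sh k E₂)) (x, s) ρ := by
  obtain ⟨ρ, ρ0, Λ, l⟩ := h.u.ln
  have Λ0 := abs_nonneg Λ
  refine ⟨ρ / (1 + |Λ|), by positivity, fun x s => ?_⟩
  obtain ⟨U, W, nu, nw, bu, bw, a, b⟩ := l x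
  have lt : ∀ {r : ℝ}, 0 ≤ r → r < ρ / (1 + |Λ|) → r < ρ ∧ r + Λ * r < ρ := fun {r} r0 hr => by
    rw [lt_div_iff₀ (by positivity)] at hr
    constructor <;> nlinarith [le_abs_self Λ]
  have Λm : ∀ {r r' : ℝ}, 0 ≤ r → r ≤ r' → r' < ρ / (1 + |Λ|) → ∀ q ≤ r', q + Λ * r < ρ :=
    fun {r r'} r0 hr hr' q hq => by
      rw [lt_div_iff₀ (by positivity)] at hr'
      nlinarith [le_abs_self Λ, mul_le_mul_of_nonneg_left hr Λ0]
  have c1 : ∀ t, 0 ≤ 1 - cl t ∧ 1 - cl t ≤ 1 := fun t => by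
    constructor <;> linarith [(Ar.cl_mem t).1, (Ar.cl_mem t).2]
  constructor
  · refine ⟨(cl (s - 1) • U.comp (snd ℝ E₁ E₂)).prod 0,
      ((1 - cl (s - 2)) • (U.comp W).comp (fst ℝ E₁ E₂)).prod (cl (s - 2) • W.comp (fst ℝ E₁ E₂)),
      fun w hw m i => ?_, fun t m hm e => ?_⟩
    · have hv : D.v (x, (w (i - 1)).1) = W (w (i - 1)).1 :=
        (b _ ((n1 w _).trans_lt (lt (norm_nonneg _) hw).1)).2
      have hu : D.u (x, cl (s - 1) • (w i).2 + (1 - cl (s - 2)) • W (w (i - 1)).1) = U _ :=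
        a _ ((norm_add_le _ _).trans_lt ((add_le_add (Ar.smul_le (Ar.cl_mem _) _)
          ((Ar.smul_le (c1 _) _).trans (bw _))).trans_lt
            (Λm (norm_nonneg _) (n1 w _) hw _ (n2 w _))))
      refine Prod.ext ?_ ?_
      · simp [Data.a₂, pr, s1, s2, hv, hu]
      · simp [Data.a₂, pr, s1, s2, hv]
    · have e2 : ∀ i, (m i).2 = t • cl (s - 2) • W (m (i - 1)).1 := fun i => by
        simpa using congrArg Prod.snd (e i)
      have z := nn_use nu hk (mn12 hm).1 (t * (cl (s - 1) * (t * cl (s - 2)) + (1 - cl (s - 2))))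
        fun i => by
          have := congrArg Prod.fst (e i)
          simp only [Prod.smul_fst, Prod.fst_add, prod_apply, smul_apply, comp_apply, coe_fst',
            coe_snd', e2 i, map_smul] at this
          change (m i).1 = _ • U (W (m (i - 1)).1)
          rw [this]; module
      refine z12 z (funext fun i => ?_)
      change (m i).2 = 0
      rw [e2, show (m (i - 1)).1 = 0 from congrFun z _]; simp
  · refine ⟨((1 - cl (s - 3)) • U.comp (snd ℝ E₁ E₂)).prod 0, ContinuousLinearMap.prod 0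
      ((1 - cl (s - 4)) • W.comp (fst ℝ E₁ E₂) + cl (s - 3) • (W.comp U).comp (snd ℝ E₁ E₂)),
      fun w hw m i => ?_, fun t m hm e => ?_⟩
    · have hu : ∀ i, D.u (x, (w i).2) = U (w i).2 := fun i =>
        a _ ((n2 w _).trans_lt (lt (norm_nonneg _) hw).1)
      have hv : D.v (x, (1 - cl (s - 4)) • (w (i - 1)).1 + cl (s - 3) • U (w (i - 1)).2) = W _ :=
        (b _ ((norm_add_le _ _).trans_lt ((add_le_add (Ar.smul_le (c1 _) _)
          ((Ar.smul_le (Ar.cl_mem _) _).trans (bu _))).trans_lt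
            (Λm (norm_nonneg _) (n2 w _) hw _ (n1 w _))))).2
      refine Prod.ext ?_ ?_
      · simp [Data.a₃, pr, s1, s2, hu]
      · simp [Data.a₃, pr, s1, s2, hu, hv]
    · have e1 : ∀ i, (m i).1 = t • (1 - cl (s - 3)) • U (m i).2 := fun i => by
        simpa using congrArg Prod.fst (e i)
      have z := nn_use nw hk (mn12 hm).2
        (t * ((1 - cl (s - 4)) * (t * (1 - cl (s - 3))) + cl (s - 3))) fun i => by
          have := congrArg Prod.snd (e i)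
          simp only [Prod.smul_snd, Prod.snd_add, prod_apply, smul_apply, comp_apply, coe_fst',
            coe_snd', e1 (i - 1), map_smul, add_apply, zero_apply] at this
          change (m i).2 = _ • W (U (m (i - 1)).2)
          rw [this]; module
      refine z12 (funext fun i => ?_) z
      change (m i).1 = 0
      rw [e1, show (m i).2 = 0 from congrFun z _]; simp

theorem ag (b : X × ℝ) : ((D.Y k).rp fun b => min (b.2 / 4) (1 / 4)).Ag b
    (stM E₂ (Psi k O ph)) b := by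
  obtain ⟨x, s⟩ := b
  have l : min (s / 4) (1 / 4) ≤ 1 / 4 := min_le_right _ _
  have q : ∀ y, (((x, min (s / 4) (1 / 4)), y) ∈ D.O₁ ↔ ((x, s), y) ∈ O) ∧
      D.h₁ ((x, min (s / 4) (1 / 4)), y) = ph ((x, s), y) := fun y => by
    obtain ⟨a, b⟩ := h.a.hd x _ y l
    rcases le_total s 1 with e | e
    · rw [show 4 * min (s / 4) (1 / 4) = s by rw [min_eq_left (by linarith)]; ring] at a b
      exact ⟨a, b⟩
    · rw [show 4 * min (s / 4) (1 / 4) = 1 by rw [min_eq_right (by linarith)]; ring] at a b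
      exact ⟨a.trans (h.a.cs x s y e).1.symm, b.trans (h.a.cs x s y e).2.symm⟩
  have p := Sq.p1 (D := D) (k := k) x (sh k E₁) (sh k E₂) (l.trans (by norm_num : (1 / 4 : ℝ) ≤ 1))
  refine ⟨fun w => ⟨(p w).1.trans ?_, fun m => ((p w).2 m).trans ?_⟩, Sq.path_n _ _ _⟩
  · exact (all_sh (p := fun i => ((x, min (s / 4) (1 / 4)), s1 w i) ∈ D.O₁)).trans
      (forall_congr' fun i => (q _).1)
  · exact congrArg (fun y => pr y (s2 w)) (funext fun i => congrArg (s1 w i - ·) (q _).2)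

end TlK

open TlK in
theorem tail : TAIL := by
  intro X _ _ _ A _ T E₁ E₂ _ _ _ _ _ _ D c κ R₀ M O ph k p1 p2 h hk
  have hD := ok_of p1 p2 h
  have yo : (D.Y k).Ok := Sq.y_eq (D := D) (k := k) ▸ Sq.path_ok arc hD (.inr rfl)
  obtain ⟨ρ1, r1, l1⟩ := lc1 (k := k) h (by omega)
  obtain ⟨ρ2, r2, l2⟩ := lc23 (k := k) h (by omega)
  obtain ⟨ρ4, r4, l4⟩ := lc4 (k := k) h (by omega)
  have cs : ∀ s : ℝ, s ≤ 1 ∨ (1 < s ∧ s ≤ 3) ∨ (3 < s ∧ s ≤ 5) ∨ 5 < s := fun s => by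
    by_contra n
    push Not at n
    linarith [n.2.2.1 (n.2.1 n.1), n.2.2.2]
  obtain ⟨δ₀, d0, nz⟩ := noz_unif yo (Sq.path_n _ _) (K := univ ×ˢ Icc (1 / 4) 6)
    (isCompact_univ.prod isCompact_Icc) (fun b hb w m e => by
      obtain ⟨x, s⟩ := b
      rcases cs s with a | a | a | a
      · have p := Sq.p1 (D := D) (k := k) x (sh k E₁) (sh k E₂) a w
        exact ex1 h x hb.2.1 w (p.1.1 m) ((p.2 m).symm.trans e)
      · have p := Sq.p2 (D := D) (k := k) x (sh k E₁) (sh k E₂) a.1 a.2 w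
        exact ex2 h x s w (p.1.1 m) ((p.2 m).symm.trans e)
      · have p := Sq.p3 (D := D) (k := k) x (sh k E₁) (sh k E₂) a.1 a.2 w
        exact ex3 h x s w (p.1.1 m) ((p.2 m).symm.trans e)
      · have p := Sq.p4 (D := D) (k := k) x (sh k E₁) (sh k E₂) a w
        exact ex4 h x s w (p.1.1 m) ((p.2 m).symm.trans e))
    (lt_min r1 (lt_min r2 r4)) fun b hb => by
      obtain ⟨x, s⟩ := b
      rcases cs s with a | a | a | a
      · exact lc_mono (l1 x s hb.2.1) (min_le_left _ _) (Sq.p1 x _ _ a)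
      · exact lc_mono (l2 x s).1 ((min_le_right _ _).trans (min_le_left _ _)) (Sq.p2 x _ _ a.1 a.2)
      · exact lc_mono (l2 x s).2 ((min_le_right _ _).trans (min_le_left _ _)) (Sq.p3 x _ _ a.1 a.2)
      · exact lc_mono (l4 x s) ((min_le_right _ _).trans (min_le_right _ _)) (Sq.p4 x _ _ a)
  refine ⟨δ₀, d0, fun δ hδ hl => ?_⟩
  have z : ∀ x s, s ≤ 0 ∨ 1 / 4 ≤ s → (D.Y k).NoZ δ (x, s) := fun x s hs => by
    rcases hs with a | a
    · exact Sq.y_noZ hD x s δ (.inl a)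
    · rcases le_total s 6 with b | b
      · exact nz δ hl (x, s) ⟨mem_univ _, a, b⟩
      · exact Sq.y_noZ hD x s δ (.inr b)
  have cφ : Continuous fun b : X × ℝ => min (b.2 / 4) (1 / 4) := by fun_prop
  have o1 : ((D.Y k).rp fun b => min (b.2 / 4) (1 / 4)).Ok := yo.pull (by fun_prop)
  have o2 := o1.ag (ag h)
  have z2 : ∀ x s, s ≤ 0 ∨ 1 ≤ s → (stM E₂ (Psi k O ph)).NoZ δ (x, s) := fun x s hs =>
    (ag h (x, s)).symm.noz (PM.NoZ.pull.2 (z x _ (hs.imp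
      (fun a => (min_le_left _ _).trans (by linarith)) fun a => le_min (by linarith) le_rfl)))
  have c2 : (stM E₂ (Psi k O ph)).Cs δ :=
    PM.cs_of 0 1 (fun x t a => z2 x t (.inl a.le)) fun x t a => z2 x t (.inr a.le)
  have o3 : ((Psi k O ph).F (tau δ)).Ok := PM.fok (ok_of_st o2 fun _ => rfl) (tau_ok hδ)
    (PM.cs_of 0 1 (fun x t a => noz_of_st (z2 x t (.inl a.le)) rfl)
      fun x t a => noz_of_st (z2 x t (.inr a.le)) rfl)
  refine ⟨o3, ?_⟩
  have fo : ((D.Y k).F (tau δ)).Ok := PM.fok yo (tau_ok hδ)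
    (PM.cs_of 0 1 (fun x t a => z x t (.inl a.le)) fun x t a => z x t (.inr (by linarith)))
  have e1 := fo.eqv_rp (c := 0) (d := 1 / 4) (R := 1) (fun x hx =>
    ⟨lt_of_not_ge fun a => (z x.1.1 x.1.2 (.inl a)).notMem (tau_ok hδ) hx,
      lt_of_not_ge fun a => (z x.1.1 x.1.2 (.inr a)).notMem (tau_ok hδ) hx⟩) cφ
    (fun b a => (min_le_left _ _).trans (by linarith)) fun b a => le_min (by linarith) le_rfl
  have e2 := (e1.ok.1 fo).eqv_sm (PM.F_sm (ag h) (tau δ))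
  rw [T.pa_eqv k (sp (E₁ × E₂)) _ _ hk ((e1.trans e2).trans (F_st o2 (fun _ => rfl) hδ c2))]
  exact T.pa_st k (sp E₁) (sp E₂) _ hk o3

end Crest.Agent.N218.Rd

end
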