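import Crest.Agent.N218.Rd.Defs
import Crest.Agent.N218.Pm.Kit1

/-! Row 218, RED (helper21): complex coordinates for real data. -/

set_option autoImplicit false
set_option linter.unusedSectionVars false
open Set Topology

noncomputable section

namespace Crest.Agent.N218.Rd
open Pm

namespace Tr
variable {X B E₁ E₂ F₁ F₂ : Type} [TopologicalSpace X] [TopologicalSpace B]
  [NormedAddCommGroup E₁] [NormedSpace ℝ E₁] [NormedAddCommGroup E₂] [NormedSpace ℝ E₂]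
  [NormedAddCommGroup F₁] [NormedSpace ℝ F₁] [NormedAddCommGroup F₂] [NormedSpace ℝ F₂]
  (e₁ : F₁ ≃ₗᵢ[ℝ] E₁) (e₂ : F₂ ≃ₗᵢ[ℝ] E₂)

/-- transported domains -/
def dm (O : Set (B × E₁)) : Set (B × F₁) := {w | (w.1, e₁ w.2) ∈ O}
/-- transported maps -/
def mp (h : B × E₁ → E₂) (w : B × F₁) : F₂ := e₂.symm (h (w.1, e₁ w.2))
/-- transported linear maps -/
def ln (L : E₁ →L[ℝ] E₂) : F₁ →L[ℝ] F₂ :=
  (e₂.symm : E₂ →L[ℝ] F₂).comp (L.comp (e₁ : F₁ →L[ℝ] E₁))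

theorem mem_dm {O : Set (B × E₁)} {w : B × F₁} : w ∈ dm e₁ O ↔ (w.1, e₁ w.2) ∈ O := Iff.rfl
theorem ln_apply (L : E₁ →L[ℝ] E₂) (y : F₁) : ln e₁ e₂ L y = e₂.symm (L (e₁ y)) := rfl
theorem ct : Continuous fun w : B × F₁ => (w.1, e₁ w.2) := by fun_prop
theorem dm_op {O : Set (B × E₁)} (h : IsOpen O) : IsOpen (dm e₁ O) := h.preimage (ct e₁)
theorem dm_cp {O : Set (B × E₁)} (h : IsCompact O) : IsCompact (dm e₁ O) :=
  ((Homeomorph.refl B).prodCongr e₁.toHomeomorph).isCompact_preimage.2 h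
theorem mp_ct {O : Set (B × E₁)} {h : B × E₁ → E₂} (c : ContinuousOn h O) :
    ContinuousOn (mp e₁ e₂ h) (dm e₁ O) :=
  e₂.symm.continuous.comp_continuousOn (c.comp (ct e₁).continuousOn fun _ a => a)

theorem nn {L : E₁ →L[ℝ] E₁} {L' : F₁ →L[ℝ] F₁} (h : Nn L) (e : ∀ y, e₁ (L' y) = L (e₁ y)) :
    Nn L' := fun c z j a b => e₁.injective ((h c (fun i => e₁ (z i)) j
      (fun i => by rw [a, map_smul, e]) (by rw [b, map_neg])).trans (map_zero _).symm)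

theorem hp {p C : X → E₁ →L[ℝ] E₁} {μ c κ R₀ M : ℝ} {O : Set ((X × ℝ) × E₁)}
    {h : (X × ℝ) × E₁ → E₁} (a : HP p C μ c κ R₀ M O h) :
    HP (fun x => ln e₁ e₁ (p x)) (fun x => ln e₁ e₁ (C x)) μ c κ R₀ M (dm e₁ O) (mp e₁ e₁ h) where
  op := dm_op e₁ a.op
  ct := mp_ct e₁ e₁ a.ct
  cp R := by convert dm_cp e₁ (a.cp R) using 1; ext; simp [dm, mp]; tauto
  bd w m := by
    have := a.bd _ m
    rw [← e₁.norm_map, ← e₁.norm_map (w.2 - _)]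
    simpa [mp, ln_apply] using this
  ex w m := by simpa [mp, ln_apply] using a.ex _ m
  ln x s y m := ⟨(a.ln x s _ m).1, by simp [mp, ln_apply, (a.ln x s _ m).2]⟩

theorem zz {O : Set (B × E₁)} {h : B × E₁ → E₁} {b : B} (z : ∀ (k : ℕ) (y : V k E₁),
    (∀ i, (b, y i) ∈ O) → (∀ i, y i = h (b, y (i - 1))) → y = 0) (k : ℕ) (y : V k F₁)
    (m : ∀ i, (b, y i) ∈ dm e₁ O) (e : ∀ i, y i = mp e₁ e₁ h (b, y (i - 1))) : y = 0 :=
  funext fun i => e₁.injective ((congrFun (z k (fun i => e₁ (y i)) m fun i => by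
    rw [e i]; simp [mp]) i).trans (map_zero _).symm)

theorem ll {O : Set (B × E₁)} {h : B × E₁ → E₁} {b : B} {ρ : ℝ}
    (a : ∃ L, Nn L ∧ ∀ y, ‖y‖ < ρ → (b, y) ∈ O ∧ h (b, y) = L y) :
    ∃ L, Nn L ∧ ∀ y, ‖y‖ < ρ → (b, y) ∈ dm e₁ O ∧ mp e₁ e₁ h (b, y) = L y :=
  let ⟨L, n, a⟩ := a
  ⟨ln e₁ e₁ L, nn e₁ n fun y => by simp [ln_apply], fun y m =>
    have := a (e₁ y) (by simpa using m)
    ⟨this.1, congrArg e₁.symm this.2⟩⟩

/-- transported data -/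
def tr (R : RD X E₁ E₂) : RD X F₁ F₂ :=
  ⟨fun x => ln e₁ e₁ (R.p₁ x), fun x => ln e₂ e₂ (R.p₂ x), fun x => ln e₁ e₁ (R.C x), R.μ,
    mp e₂ e₁ R.u, dm e₁ R.Ov, mp e₁ e₂ R.v, dm e₁ R.O₁, mp e₁ e₁ R.h₁, dm e₂ R.O₂, mp e₂ e₂ R.h₂⟩

theorem tr_ok {R : RD X E₁ E₂} {c κ R₀ M : ℝ} {O : Set ((X × ℝ) × E₁)} {ph : (X × ℝ) × E₁ → E₁}
    (h : R.Ok c κ R₀ M O ph) : (tr e₁ e₂ R).Ok c κ R₀ M (dm e₁ O) (mp e₁ e₁ ph) where
  l := ⟨h.l.hμ, h.l.hc, h.l.hκ, continuous_const.clm_comp (h.l.Cc.clm_comp continuous_const),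
    fun x => ContinuousLinearMap.opNorm_le_bound _ ((norm_nonneg _).trans (h.l.Cn x)) fun y => by
      simpa [tr, ln_apply] using (R.C x).le_of_opNorm_le (h.l.Cn x) (e₁ y),
    fun x y => by simpa [tr, ln_apply] using h.l.Cp x (e₁ y)⟩
  u := by
    obtain ⟨ρ, r, Λ, a⟩ := h.u.ln
    refine ⟨e₁.symm.continuous.comp (h.u.uc.comp (ct e₂)),
      fun x z => by simp [tr, mp, ln_apply, h.u.up], fun x z => ?_,
      fun x z => by simpa [tr, mp, ln_apply] using h.u.ux x (e₂ z), dm_op e₁ h.u.vo,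
      mp_ct e₁ e₂ h.u.vc, fun w m => by simpa [tr, mp, ln_apply] using h.u.vp _ m,
      fun r => by convert dm_cp e₁ (h.u.vk r) using 1; ext; simp [tr, dm, mp]; tauto,
      fun w m => by simpa [tr, ln_apply] using h.u.vb _ m, ρ, r, Λ, fun x => ?_⟩
    · rw [← e₁.norm_map]; simpa [tr, mp, ln_apply] using h.u.ub x (e₂ z)
    · obtain ⟨U, W, n, n', b, b', d, d'⟩ := a x
      exact ⟨ln e₂ e₁ U, ln e₁ e₂ W, nn e₁ n fun y => by simp [ln_apply],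
        nn e₂ n' fun y => by simp [ln_apply], fun z => by simpa [ln_apply] using b (e₂ z),
        fun y => by simpa [ln_apply] using b' (e₁ y),
        fun z m => congrArg e₁.symm (d (e₂ z) (by simpa using m)), fun y m =>
          have := d' (e₁ y) (by simpa using m)
          ⟨this.1, congrArg e₂.symm this.2⟩⟩
  a := ⟨hp e₁ h.a.hp, fun x s y m => ⟨(h.a.r₁ x s _ m).1, fun o => by
      simp [tr, mp, (h.a.r₁ x s _ m).2 o]⟩,
    fun x s y m => ⟨(h.a.hd x s _ m).1, congrArg e₁.symm (h.a.hd x s _ m).2⟩,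
    fun x s y m => ⟨(h.a.cs x s _ m).1, congrArg e₁.symm (h.a.cs x s _ m).2⟩⟩
  t := ⟨fun x s m => zz e₁ (h.t.z x s m),
    let ⟨ρ, r, a⟩ := h.t.ln; ⟨ρ, r, fun x s m => ll e₁ (a x s m)⟩⟩
  b := ⟨dm_op e₂ h.b.o₂, mp_ct e₂ e₂ h.b.c₂,
    fun x s z => by simpa [tr, mp, dm, ln_apply] using h.b.q₂ x s (e₂ z),
    fun r => by convert dm_cp e₂ (h.b.k₂ r) using 1; ext; simp [tr, dm, mp]; tauto,
    fun w m => by simpa [tr, mp, ln_apply] using h.b.x₂ _ m,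
    fun x s z m => by simpa [tr, mp, dm] using h.b.l₂ x s (e₂ z) m,
    fun x s z m => ⟨(h.b.r₂ x s _ m).1, by simp [tr, mp, ln_apply, (h.b.r₂ x s _ m).2]⟩,
    fun x s => zz e₂ (h.b.z x s), let ⟨ρ, r, a⟩ := h.b.ln; ⟨ρ, r, fun x s => ll e₂ (a x s)⟩⟩

/-- slotwise isometries -/
def sw (k : ℕ) : V k E₁ ≃L[ℝ] V k F₁ :=
  ContinuousLinearEquiv.piCongrRight fun _ => e₁.symm.toContinuousLinearEquiv

theorem sw_apply {k : ℕ} (y : V k E₁) (i : Ix k) : sw e₁ k y i = e₁.symm (y i) := rfl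
theorem sw_symm {k : ℕ} (y : V k F₁) (i : Ix k) : (sw e₁ k).symm y i = e₁ (y i) := rfl
theorem sw_mn {k : ℕ} (y : V k E₁) (i : Ix k) : mn (sw e₁ k y) i = e₁.symm (mn y i) := by
  simp [mn, sw_apply]
theorem sw_norm {k : ℕ} (y : V k E₁) : ‖mn (sw e₁ k y)‖ = ‖mn y‖ := by
  simp [Pi.norm_def, sw_mn]

theorem cj_ok {k : ℕ} {P : Pb B k F₁} (h : P.Ok) (a : V k E₁ ≃L[ℝ] V k F₁)
    (e : ∀ y, a (sh k _ y) = sh k _ (a y)) : (P.cj a).Ok := by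
  let Φ : B × V k E₁ ≃ₜ B × V k F₁ := (Homeomorph.refl B).prodCongr a.toHomeomorph
  refine ⟨h.op.preimage Φ.continuous, fun x m => ?_, a.symm.continuous.comp_continuousOn
    (h.ct.comp Φ.continuous.continuousOn fun _ m => m), fun x m => a.injective ?_, ?_,
    fun x m z => h.fr _ m ?_⟩
  · change (x.1, a (sh k _ x.2)) ∈ P.O
    rw [e]; exact h.inv _ m
  · simp only [Pb.cj, e, a.apply_symm_apply]; exact h.eq _ m
  · convert Φ.isCompact_preimage.2 h.cp using 1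
    ext x
    exact and_congr Iff.rfl a.symm.map_eq_zero_iff
  · exact (comm_mn (L := (a : V k E₁ →L[ℝ] V k F₁)) e x.2).symm.trans (by rw [z, map_zero])

theorem psi_cj {k : ℕ} (O : Set (B × E₁)) (h : B × E₁ → E₁) (δ : ℝ) :
    ((Psi k (dm e₁ O) (mp e₁ e₁ h)).F (tau δ)).cj (sw e₁ k) = (Psi k O h).F (tau δ) := by
  simp only [Pb.cj, PM.F, Psi, tau, sw_norm]
  congr 1
  · ext x
    have : mn (sw e₁ k x.2) = 0 ↔ mn x.2 = 0 := by rw [← norm_eq_zero, sw_norm, norm_eq_zero]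
    simp [dm, this, sw_mn, sw_apply, sw_norm]
  · funext x i
    simp [mp, sw_symm, sw_mn, sw_apply]
end Tr

open Tr in
theorem trs (H : TAIL) : TRS := by
  intro X _ _ _ A _ T E₁ E₂ _ _ _ _ _ _ R c κ R₀ M O ph F₁ F₂ _ _ _ _ _ _ e₁ e₂ π₁ π₂ k h p₁ p₂
    a₁ a₂ hk
  let D : Data X F₁ F₂ := ⟨π₁, π₂, (tr e₁ e₂ R).C, R.μ, (tr e₁ e₂ R).u, (tr e₁ e₂ R).Ov,
    (tr e₁ e₂ R).v, (tr e₁ e₂ R).O₁, (tr e₁ e₂ R).h₁, (tr e₁ e₂ R).O₂, (tr e₁ e₂ R).h₂⟩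
  have e : toRD D = tr e₁ e₂ R := by
    unfold toRD tr
    congr 1
    · exact funext fun x => ContinuousLinearMap.ext fun y => e₁.eq_symm_apply.2 (a₁ x y)
    · exact funext fun x => ContinuousLinearMap.ext fun y => e₂.eq_symm_apply.2 (a₂ x y)
  have o := e ▸ tr_ok e₁ e₂ h
  obtain ⟨δ₀, d, u⟩ := H X A T F₁ F₂ D c κ R₀ M _ _ k p₁ p₂ o hk
  refine ⟨D, ok_of p₁ p₂ o, rfl, rfl, δ₀, d, fun δ b b' => ?_⟩
  obtain ⟨v, w⟩ := u δ b b'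
  rw [← psi_cj e₁]
  exact ⟨cj_ok v _ fun _ => rfl,
    w.trans (T.pa_cj k (sp F₁) (sp E₁) (sw e₁ k) _ hk v fun _ => rfl).symm⟩

end Crest.Agent.N218.Rd
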