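import Crest.Agent.N218.Rd.Defs

/-! Row 218, RED: the clauses on `u`, `v` (helper36). -/

set_option autoImplicit false
set_option linter.unusedVariables false
set_option linter.unusedSectionVars false
open Set Topology
open scoped InnerProductSpace

noncomputable section

namespace Crest.Agent.N218.Rd.Uv
open Pm

theorem nn_sym {E : Type} [NormedAddCommGroup E] [InnerProductSpace ℝ E] (L : E →L[ℝ] E)
    (h : ∀ y y', ⟪L y, y'⟫_ℝ = ⟪y, L y'⟫_ℝ) : Nn L := by
  intro c z j hz hj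
  have key : ∀ n i, ⟪z (i + n), z 0⟫_ℝ = ⟪z i, z n⟫_ℝ := by
    intro n
    induction n with
    | zero => intro i; rfl
    | succ n ih =>
      intro i
      have e : i + (n + 1) = (i + 1) + n := by ring
      rw [e, ih, hz i, hz n, real_inner_smul_left, real_inner_smul_right, h]
  have k := key j j
  rw [← two_mul, hj, inner_neg_left, real_inner_self_eq_norm_sq, real_inner_self_eq_norm_sq] at k
  have : ‖z 0‖ ^ 2 ≤ 0 := by nlinarith [sq_nonneg ‖z j‖]
  exact norm_eq_zero.1 (pow_eq_zero_iff two_ne_zero |>.1 (le_antisymm this (sq_nonneg _)))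

theorem pow_sym {E : Type} [NormedAddCommGroup E] [InnerProductSpace ℝ E] (L : E →L[ℝ] E)
    (h : ∀ y y', ⟪L y, y'⟫_ℝ = ⟪y, L y'⟫_ℝ) (n : ℕ) :
    ∀ y y', ⟪(L ^ n) y, y'⟫_ℝ = ⟪y, (L ^ n) y'⟫_ℝ := by
  induction n with
  | zero => intro y y'; simp
  | succ n ih =>
    intro y y'
    conv_lhs => rw [pow_succ']
    conv_rhs => rw [pow_succ]
    simp only [mul_apply_eq_comp]
    rw [h, ih]

theorem chi_lt {η t : ℝ} (h : 0 < η) (ht : -η < t) : χ η t < 1 := by
  have : -2 * t / η - 1 < 1 := by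
    rw [sub_lt_iff_lt_add, div_lt_iff₀ h]; linarith
  unfold χ cl
  exact max_lt one_pos (lt_of_le_of_lt (min_le_right _ _) this)

theorem chi_one {η t : ℝ} (h : 0 < η) (ht : t ≤ -η) : χ η t = 1 := by
  have : 1 ≤ -2 * t / η - 1 := by
    rw [le_sub_iff_add_le, le_div_iff₀ h]; linarith
  unfold χ cl
  rw [min_eq_left this, max_eq_right zero_le_one]

theorem chi_zero {η t : ℝ} (h : 0 < η) (ht : -η / 2 ≤ t) : χ η t = 0 := by
  have : -2 * t / η - 1 ≤ 0 := by
    rw [sub_nonpos, div_le_one h]; linarith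
  unfold χ cl
  exact max_eq_left ((min_le_right _ _).trans this)

theorem chi_ct (η : ℝ) : Continuous (χ η) := by unfold χ cl; fun_prop

variable {X E₁ E₂ : Type} [TopologicalSpace X] [NormedAddCommGroup E₁] [InnerProductSpace ℝ E₁]
  [NormedAddCommGroup E₂] [InnerProductSpace ℝ E₂] {G : Rg X E₁ E₂} {c κ R₀ M : ℝ}

theorem n_p2 (h : G.Ok c κ R₀ M) (x : X) (z : E₂) : ‖G.ι' x (G.ι x z)‖ = ‖G.ι x z‖ := by
  have : ‖G.ι' x (G.ι x z)‖ ^ 2 = ‖G.ι x z‖ ^ 2 := by
    rw [← real_inner_self_eq_norm_sq, ← real_inner_self_eq_norm_sq, ← h.ad, h.iii]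
  exact (pow_left_inj₀ (norm_nonneg _) (norm_nonneg _) two_ne_zero).1 this

theorem n_i (h : G.Ok c κ R₀ M) (x : X) (z : E₂) : ‖G.ι x z‖ ≤ ‖z‖ := by
  have e : ‖G.ι x z‖ ^ 2 ≤ ‖z‖ * ‖G.ι x z‖ := by
    rw [← real_inner_self_eq_norm_sq, h.ad, ← n_p2 h]; exact real_inner_le_norm _ _
  by_contra hn
  push Not at hn
  nlinarith [norm_nonneg z]

theorem n_i' (h : G.Ok c κ R₀ M) (x : X) (y : E₁) : ‖G.ι' x y‖ ≤ ‖y‖ := by
  have e : ‖G.ι' x y‖ ^ 2 ≤ ‖G.ι' x y‖ * ‖y‖ := by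
    rw [← real_inner_self_eq_norm_sq, ← h.ad]
    exact (real_inner_le_norm _ _).trans (mul_le_mul_of_nonneg_right (n_i h _ _) (norm_nonneg _))
  by_contra hn
  push Not at hn
  nlinarith [norm_nonneg y]

theorem iii' (h : G.Ok c κ R₀ M) (x : X) (y : E₁) :
    G.ι' x (G.ι x (G.ι' x y)) = G.ι' x y := by
  refine ext_inner_left ℝ fun z => ?_
  rw [← h.ad, real_inner_comm, h.ad, real_inner_comm, ← h.ad, h.iii, h.ad]

theorem fi_succ (n : ℕ) (w : X × E₁) : G.fi (n + 1) w = G.f (w.1, G.fi n w) := by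
  unfold Rg.fi; rw [Function.iterate_succ_apply']

theorem fi_ct (h : G.Ok c κ R₀ M) (n : ℕ) : Continuous (G.fi n) := by
  induction n with
  | zero => exact continuous_snd
  | succ n ih =>
    have : G.fi (n + 1) = fun w => G.f (w.1, G.fi n w) := funext (fi_succ n)
    rw [this]; exact h.fc.comp (continuous_fst.prodMk ih)

theorem fi_D (h : G.Ok c κ R₀ M) (n : ℕ) (w : X × E₁) (hw : w ∈ G.Dm) :
    (w.1, G.fi n w) ∈ G.Dm := by
  cases n with
  | zero => exact hw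
  | succ n => rw [fi_succ]; exact h.fD (w.1, G.fi n w)

theorem fi_g (h : G.Ok c κ R₀ M) (n : ℕ) (w : X × E₁) (hw : w ∈ G.Dm) :
    G.g (w.1, G.fi n w) ≤ G.g w := by
  induction n with
  | zero => exact le_rfl
  | succ n ih =>
    rw [fi_succ]
    have a := h.jg 1 ⟨zero_le_one, le_rfl⟩ _ (fi_D h n w hw)
    rw [h.j1 _ (fi_D h n w hw)] at a
    exact a.trans ih

theorem A_n (h : G.Ok c κ R₀ M) (x : X) (y : E₁) : ‖G.A x y‖ ≤ 2 * ‖y‖ := by
  have : G.A x y = y - G.H x y := rfl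
  rw [this]
  have a := norm_sub_le y (G.H x y)
  have b := h.Hn x y
  nlinarith [norm_nonneg y]

theorem Ap_n (h : G.Ok c κ R₀ M) (x : X) (n : ℕ) (y : E₁) : ‖(G.A x ^ n) y‖ ≤ 2 ^ n * ‖y‖ := by
  induction n with
  | zero => simp
  | succ n ih =>
    rw [pow_succ', mul_apply_eq_comp, pow_succ']
    have := A_n h x ((G.A x ^ n) y)
    nlinarith

theorem f_lin (h : G.Ok c κ R₀ M) (x : X) (y : E₁) (hy : ‖y‖ ≤ 2 * G.r) :
    G.f (x, y) = G.A x y := by
  obtain ⟨a, -, b⟩ := h.ln x y hy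
  rw [← h.j1 _ a, b 1 ⟨zero_le_one, le_rfl⟩, one_smul]; rfl

theorem fi_lin (h : G.Ok c κ R₀ M) (x : X) (n : ℕ) (y : E₁) (hy : 2 ^ n * ‖y‖ ≤ 2 * G.r) :
    G.fi n (x, y) = (G.A x ^ n) y := by
  induction n with
  | zero => rfl
  | succ n ih =>
    have p : (0 : ℝ) ≤ 2 ^ n * ‖y‖ := by positivity
    have q : (2 : ℝ) ^ n * ‖y‖ ≤ 2 * G.r := by rw [pow_succ] at hy; nlinarith
    rw [fi_succ, ih q, pow_succ', mul_apply_eq_comp]
    exact f_lin h x _ ((Ap_n h x n y).trans q)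

theorem A_sym (h : G.Ok c κ R₀ M) (x : X) (y y' : E₁) : ⟪G.A x y, y'⟫_ℝ = ⟪y, G.A x y'⟫_ℝ := by
  have e : ∀ y, G.A x y = y - G.H x y := fun _ => rfl
  rw [e, e, inner_sub_left, inner_sub_right, h.Hs]

theorem A_P (h : G.Ok c κ R₀ M) (x : X) (n : ℕ) (y : E₁) :
    (G.A x ^ n) (G.ι x (G.ι' x y)) = G.ι x (G.ι' x ((G.A x ^ n) y)) := by
  induction n generalizing y with
  | zero => rfl
  | succ n ih =>
    have e : ∀ y, G.A x y = y - G.H x y := fun _ => rfl
    rw [pow_succ, mul_apply_eq_comp, mul_apply_eq_comp, ← ih, e, e, h.HP,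
      map_sub (G.ι' x), map_sub (G.ι x)]

theorem mx_ge (y : E₁) : 1 ≤ G.mx y := le_max_left _ _

theorem mx_n (h : G.Ok c κ R₀ M) (y : E₁) : ‖(G.mx y)⁻¹ • y‖ ≤ G.r := by
  have p : 0 < G.mx y := lt_of_lt_of_le one_pos (mx_ge y)
  rw [norm_smul, norm_inv, Real.norm_of_nonneg p.le, inv_mul_le_iff₀ p, ← div_le_iff₀ h.hr]
  exact le_max_right _ _

theorem p_S (h : G.Ok c κ R₀ M) (x : X) (l : ℝ) (y : E₁) :
    G.p₁ x (G.S x l y) = l • G.p₁ x y := by
  unfold Rg.S
  rw [map_add, map_smul, h.pi, sub_smul, one_smul]; abel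

theorem r_S (h : G.Ok c κ R₀ M) (x : X) (l : ℝ) (y : E₁) :
    G.S x l y - G.p₁ x (G.S x l y) = y - G.p₁ x y := by
  rw [p_S h]; unfold Rg.S; rw [sub_smul, one_smul]; abel

theorem F_ct (h : G.Ok c κ R₀ M) (T : ℕ) : Continuous (G.F T) :=
  (fi_ct h T).comp (continuous_fst.prodMk h.fc)

end Crest.Agent.N218.Rd.Uv

namespace Crest.Agent.N218.Rd
open Pm

open Uv in
theorem uv : UV := by
  intro X E₁ E₂ _ _ _ _ _ _ _ _ _ G c κ R₀ M h T T' η R₁ k
  have hr := h.hr
  have hη := k.η0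
  have cF := F_ct h T
  have cg : Continuous fun w : X × E₁ => G.g (w.1, G.F T w) := h.gc.comp (continuous_fst.prodMk cF)
  have ci : Continuous fun w : X × E₁ => G.ι' w.1 (G.F T w) :=
    (h.ic'.comp continuous_fst).clm_apply cF
  have cχ : Continuous fun w : X × E₁ => 1 - 1 * χ η (G.g (w.1, G.F T w)) :=
    continuous_const.sub (continuous_const.mul ((chi_ct η).comp cg))
  have pχ : ∀ w : X × E₁, -η < G.g (w.1, G.F T w) → 0 < 1 - 1 * χ η (G.g (w.1, G.F T w)) :=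
    fun w hw => by have := chi_lt hη hw; linarith
  have nv : ∀ w : X × E₁, -η < G.g (w.1, G.F T w) → ∀ R : ℝ, (‖(G.rd T T' η).v w‖ ≤ R ↔
      ‖G.ι' w.1 (G.F T w)‖ ≤ (1 - 1 * χ η (G.g (w.1, G.F T w))) * R) := by
    intro w hw R
    change ‖(1 - 1 * χ η (G.g (w.1, G.F T w)))⁻¹ • G.ι' w.1 (G.F T w)‖ ≤ R ↔ _
    rw [norm_smul, norm_inv, Real.norm_of_nonneg (pχ w hw).le, inv_mul_le_iff₀ (pχ w hw)]
  refine ⟨?_, ?_, ?_, ?_, ?_, ?_, ?_, ?_, ?_, ?_⟩
  · have a : Continuous fun w : X × E₂ => G.ι w.1 w.2 :=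
      (h.ic.comp continuous_fst).clm_apply continuous_snd
    have b : Continuous fun w : X × E₂ => G.mx (G.ι w.1 w.2) :=
      continuous_const.max (a.norm.div_const _)
    have d : Continuous fun w : X × E₂ => G.fi T' (w.1, (G.mx (G.ι w.1 w.2))⁻¹ • G.ι w.1 w.2) :=
      (fi_ct h T').comp (continuous_fst.prodMk
        ((b.inv₀ fun w => (lt_of_lt_of_le one_pos (mx_ge _)).ne').smul a))
    exact d.add ((b.sub continuous_const).smul ((h.pc.comp continuous_fst).clm_apply d))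
  · intro x z
    change G.S x (G.mx (G.ι x (G.ι' x (G.ι x z)))) (G.fi T' (x, (G.mx (G.ι x (G.ι' x (G.ι x z))))⁻¹ •
      G.ι x (G.ι' x (G.ι x z)))) = _
    rw [h.iii]; rfl
  · intro x z
    change ‖G.S x _ _ - G.p₁ x (G.S x _ _)‖ ≤ M
    rw [r_S h]
    exact h.db _ (fi_D h T' (x, _) (h.ln x _ ((mx_n h _).trans (by linarith))).1)
  · intro x z hz
    change R₁ ≤ ‖G.ι' x (G.ι x z)‖ at hz
    change (1 + G.κ' κ) * ‖G.ι' x (G.ι x z)‖ ≤ ‖G.p₁ x (G.S x (G.mx (G.ι x z))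
      (G.fi T' (x, (G.mx (G.ι x z))⁻¹ • G.ι x z)))‖
    rw [n_p2 h] at hz ⊢
    have R2 := k.Rr
    have p : 0 < ‖G.ι x z‖ := by linarith
    have m : G.mx (G.ι x z) = ‖G.ι x z‖ / G.r :=
      max_eq_right (by rw [le_div_iff₀ hr]; linarith)
    have pm : 0 < G.mx (G.ι x z) := lt_of_lt_of_le one_pos (mx_ge _)
    obtain ⟨d, e, -⟩ := h.ln x ((G.mx (G.ι x z))⁻¹ • G.ι x z) ((mx_n h _).trans (by linarith))
    have n0 : ‖G.ι x ((G.mx (G.ι x z))⁻¹ • z)‖ = G.r := by
      rw [map_smul, norm_smul, norm_inv, Real.norm_of_nonneg pm.le, m]; field_simp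
    have g0 := h.Hm x ((G.mx (G.ι x z))⁻¹ • z)
    rw [n0, map_smul] at g0
    have es := k.es _ d (by rw [e]; have := k.ηa; linarith)
    rw [p_S h, norm_smul, Real.norm_of_nonneg pm.le]
    have k1 : G.κ' κ ≤ 1 := (min_le_right _ _).trans (min_le_left _ _)
    calc (1 + G.κ' κ) * ‖G.ι x z‖ ≤ 2 * ‖G.ι x z‖ := by nlinarith
      _ = G.mx (G.ι x z) * (2 * G.r) := by rw [m]; field_simp
      _ ≤ _ := mul_le_mul_of_nonneg_left (R2.trans es) pm.le
  · exact isOpen_lt continuous_const cg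
  · exact (cχ.continuousOn.inv₀ fun w hw => (pχ w hw).ne').smul ci.continuousOn
  · intro w hw
    change G.ι' w.1 (G.ι w.1 (_ • G.ι' w.1 _)) = _ • G.ι' w.1 _
    rw [map_smul, map_smul, iii' h]
  · intro R
    have e : {w ∈ (G.rd T T' η).Ov | ‖(G.rd T T' η).v w‖ ≤ R ∧ ‖w.2‖ ≤ R} =
        {w : X × E₁ | ‖G.F T w‖ ≤ G.r} ∩
        ({w | ‖G.ι' w.1 (G.F T w)‖ ≤ (1 - 1 * χ η (G.g (w.1, G.F T w))) * R} ∩ {w | ‖w.2‖ ≤ R}) := by
      ext w
      constructor
      · rintro ⟨a, b, d⟩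
        refine ⟨?_, (nv w a R).1 b, d⟩
        rcases k.di (w.1, G.f w) (h.fD w) with u | u
        · exact u.le
        · exact absurd a (not_lt.2 u)
      · rintro ⟨a, b, d⟩
        have o : -η < G.g (w.1, G.F T w) := by
          by_contra hn
          push Not at hn
          have b' : ‖G.ι' w.1 (G.F T w)‖ ≤ (1 - 1 * χ η (G.g (w.1, G.F T w))) * R := b
          rw [chi_one hη hn] at b'
          have z : G.ι' w.1 (G.F T w) = 0 := norm_le_zero_iff.1 (by simpa using b')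
          have a' : ‖G.F T w‖ ≤ G.r := a
          have := (h.ln w.1 (G.F T w) (by linarith)).2.1
          have := h.Hp _ _ z
          linarith
        exact ⟨o, (nv w o R).2 b, d⟩
    rw [e]
    refine ((isCompact_univ (X := X)).prod (isCompact_closedBall (0 : E₁) R)).of_isClosed_subset
      ((isClosed_le cF.norm continuous_const).inter ((isClosed_le ci.norm
        (cχ.mul continuous_const)).inter (isClosed_le continuous_snd.norm continuous_const))) ?_
    rintro w ⟨-, -, d⟩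
    exact ⟨trivial, mem_closedBall_zero_iff.2 d⟩
  · intro w hw
    by_contra hn
    push Not at hn
    change R₁ < ‖G.p₁ w.1 w.2‖ at hn
    obtain ⟨a, b⟩ := h.en w.1 1 w.2 le_rfl
    have e := h.hp.ex _ a (k.R0.trans hn.le)
    rw [b] at e
    have hk := h.hκ
    have r : R₁ ≤ ‖G.p₁ w.1 (G.f w)‖ := by
      have : (1 + κ) * ‖G.p₁ w.1 w.2‖ ≤ ‖G.p₁ w.1 (G.f w)‖ := e
      nlinarith [norm_nonneg (G.p₁ w.1 w.2)]
    have g1 := k.rg (w.1, G.f w) (h.fD w) r
    have g2 := fi_g h T (w.1, G.f w) (h.fD w)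
    exact absurd hw (not_lt.2 (g2.trans g1))
  · set N : ℝ := 2 ^ (T + T' + 1) with hN
    have N1 : ∀ n, n ≤ T + T' + 1 → (2 : ℝ) ^ n ≤ N := fun n hn =>
      pow_le_pow_right₀ one_le_two hn
    have N0 : 1 ≤ N := by simpa using N1 0 (Nat.zero_le _)
    have sm : ∀ (n : ℕ) (t : ℝ), n ≤ T + T' + 1 → 0 ≤ t → t < min G.r (min 1 η) / N →
        2 ^ n * t ≤ min G.r (min 1 η) := by
      intro n t hn t0 ht
      rw [lt_div_iff₀ (by linarith)] at ht
      nlinarith [N1 n hn]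
    refine ⟨min G.r (min 1 η) / N, div_pos (lt_min hr (lt_min one_pos hη)) (by linarith), N,
      fun x => ⟨(G.A x ^ T').comp (G.ι x), (G.ι' x).comp (G.A x ^ (T + 1)), ?_, ?_, ?_, ?_, ?_, ?_⟩⟩
    · refine nn_sym _ fun y y' => ?_
      simp only [ContinuousLinearMap.comp_apply]
      have e : ∀ y, (G.A x ^ T') (G.ι x (G.ι' x ((G.A x ^ (T + 1)) y))) =
          (G.A x ^ (T' + (T + 1))) (G.ι x (G.ι' x y)) := fun y => by
        rw [← A_P h, pow_add (G.A x) T']; rfl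
      rw [e, e, A_P h _ _ y, h.ad, real_inner_comm, ← h.ad, real_inner_comm,
        pow_sym _ (A_sym h x)]
    · refine nn_sym _ fun y y' => ?_
      simp only [ContinuousLinearMap.comp_apply]
      rw [real_inner_comm, ← h.ad, ← h.ad, ← mul_apply_eq_comp,
        ← mul_apply_eq_comp, ← pow_add, real_inner_comm, pow_sym _ (A_sym h x)]
    · intro z
      refine (Ap_n h x T' _).trans ?_
      exact mul_le_mul (N1 _ (by omega)) (n_i h x z) (norm_nonneg _) (by linarith)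
    · intro y
      refine (n_i' h x _).trans ((Ap_n h x _ _).trans ?_)
      exact mul_le_mul_of_nonneg_right (N1 _ (by omega)) (norm_nonneg _)
    · intro z hz
      have a := (n_i h x z).trans_lt hz
      have b := (sm 0 _ (by omega) (norm_nonneg _) a).trans (min_le_left _ _)
      have m : G.mx (G.ι x z) = 1 := max_eq_left (by rw [div_le_one hr]; simpa using b)
      change G.S x (G.mx (G.ι x z)) (G.fi T' (x, (G.mx (G.ι x z))⁻¹ • G.ι x z)) = _
      rw [m, inv_one, one_smul, fi_lin h x T' _ (((sm T' _ (by omega) (norm_nonneg _) a).trans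
        (min_le_left _ _)).trans (by linarith))]
      simp [Rg.S]
    · intro y hy
      have b := sm (T + 1) _ (by omega) (norm_nonneg _) hy
      have e : G.F T (x, y) = (G.A x ^ (T + 1)) y := by
        rw [← fi_lin h x (T + 1) y ((b.trans (min_le_left _ _)).trans (by linarith))]; rfl
      have n1 := (Ap_n h x (T + 1) y).trans b
      rw [← e] at n1
      have n2 := n1.trans (min_le_left _ _)
      have n3 := n1.trans ((min_le_right _ _).trans (min_le_left _ _))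
      have n4 := n1.trans ((min_le_right _ _).trans (min_le_right _ _))
      have g1 := (h.ln x (G.F T (x, y)) (by linarith)).2.1
      have g2 := abs_real_inner_le_norm (G.H x (G.F T (x, y))) (G.F T (x, y))
      have g3 := h.Hn x (G.F T (x, y))
      have g4 : -η / 2 ≤ G.g (x, G.F T (x, y)) := by
        have := (abs_le.1 g2).1
        rw [g1]
        nlinarith [norm_nonneg (G.F T (x, y)), norm_nonneg (G.H x (G.F T (x, y)))]
      refine ⟨(by linarith : -η < G.g (x, G.F T (x, y))), ?_⟩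
      change (1 - 1 * χ η (G.g (x, G.F T (x, y))))⁻¹ • G.ι' x (G.F T (x, y)) = _
      rw [chi_zero hη g4, e]
      simp

end Crest.Agent.N218.Rd
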