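import Crest.Agent.N218.Rd.Defs

/-! Row 218, RED (helper82): the clauses on `h₂`. -/

set_option autoImplicit false
set_option linter.unusedVariables false
set_option linter.unusedSectionVars false
open Set Topology
open scoped InnerProductSpace

noncomputable section

namespace Crest.Agent.N218.Rd
open Pm

namespace H2k

theorem cl0 (t : ℝ) : 0 ≤ cl t := le_max_left _ _
theorem cl1 (t : ℝ) : cl t ≤ 1 := max_le zero_le_one (min_le_left _ _)
theorem cl_z {t : ℝ} (h : t ≤ 0) : cl t = 0 := max_eq_left ((min_le_right _ _).trans h)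
theorem cl_o {t : ℝ} (h : 1 ≤ t) : cl t = 1 := by rw [cl, min_eq_left h, max_eq_right zero_le_one]
theorem cl_lt {t : ℝ} : cl t < 1 ↔ t < 1 := by simp [cl]
theorem cl_ct : Continuous cl := by unfold cl; fun_prop
theorem chi_lt {η t : ℝ} (h : 0 < η) : χ η t < 1 ↔ -η < t := by
  rw [χ, cl_lt, sub_lt_iff_lt_add, div_lt_iff₀ h]
  constructor <;> intro <;> linarith
theorem chi_z {η t : ℝ} (h : 0 < η) (k : -η / 2 ≤ t) : χ η t = 0 :=
  cl_z (by rw [sub_nonpos, div_le_iff₀ h]; linarith)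

theorem nn_sym {E : Type} [NormedAddCommGroup E] [InnerProductSpace ℝ E] {L : E →L[ℝ] E}
    (h : ∀ y y', ⟪L y, y'⟫_ℝ = ⟪y, L y'⟫_ℝ) : Nn L := fun c z j hz e => by
  have k : ∀ n i, ⟪z (i + n), z 0⟫_ℝ = ⟪z i, z n⟫_ℝ := fun n => by
    induction n with
    | zero => exact fun _ => rfl
    | succ n ih =>
      intro i
      rw [add_comm n, ← add_assoc, ih, hz, add_comm 1, hz, inner_smul_left, inner_smul_right, h]
      rfl
  have a := k j j
  rw [← two_mul, e, inner_neg_left, real_inner_self_eq_norm_sq, real_inner_self_eq_norm_sq] at a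
  exact norm_eq_zero.1 (by nlinarith [norm_nonneg (z 0), sq_nonneg ‖z j‖])

variable {X E₁ E₂ : Type} [TopologicalSpace X] [NormedAddCommGroup E₁] [InnerProductSpace ℝ E₁]
  [NormedAddCommGroup E₂] [InnerProductSpace ℝ E₂] {G : Rg X E₁ E₂} {c κ R₀ M : ℝ}

theorem A_ap (x : X) (y : E₁) : G.A x y = y - G.H x y := rfl

theorem pow_ap (x : X) (n : ℕ) (y : E₁) : (G.A x ^ (n + 1)) y = G.A x ((G.A x ^ n) y) := by
  rw [pow_succ']; rfl

theorem pow_ap' (x : X) (n : ℕ) (y : E₁) : (G.A x ^ (n + 1)) y = (G.A x ^ n) (G.A x y) := by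
  rw [pow_succ]; rfl

section
variable (h : G.Ok c κ R₀ M)
include h

theorem ad' (x : X) (y : E₁) (z : E₂) : ⟪G.ι' x y, z⟫_ℝ = ⟪y, G.ι x z⟫_ℝ := by
  rw [real_inner_comm, ← h.ad, real_inner_comm]

theorem iii' (x : X) (y : E₁) : G.ι' x (G.ι x (G.ι' x y)) = G.ι' x y :=
  ext_inner_left ℝ fun z => by rw [← h.ad, ← ad' h, ← h.ad, h.iii, h.ad]

theorem n_p (x : X) (z : E₂) : ‖G.ι' x (G.ι x z)‖ = ‖G.ι x z‖ := by
  rw [← sq_eq_sq₀ (norm_nonneg _) (norm_nonneg _), ← real_inner_self_eq_norm_sq,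
    ← real_inner_self_eq_norm_sq, ad' h, h.iii]

theorem n_i (x : X) (z : E₂) : ‖G.ι x z‖ ≤ ‖z‖ := by
  have a := real_inner_le_norm z (G.ι' x (G.ι x z))
  rw [← h.ad, real_inner_self_eq_norm_sq, n_p h] at a
  rcases (norm_nonneg (G.ι x z)).eq_or_lt with e | e
  · exact e ▸ norm_nonneg _
  · exact le_of_mul_le_mul_right (by nlinarith) e

theorem A_sym (x : X) (y y' : E₁) : ⟪G.A x y, y'⟫_ℝ = ⟪y, G.A x y'⟫_ℝ := by
  rw [A_ap, A_ap, inner_sub_left, inner_sub_right, h.Hs]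

theorem pow_sym (x : X) (n : ℕ) : ∀ y y', ⟪(G.A x ^ n) y, y'⟫_ℝ = ⟪y, (G.A x ^ n) y'⟫_ℝ := by
  induction n with
  | zero => exact fun _ _ => rfl
  | succ n ih => intro y y'; rw [pow_ap, A_sym h, ih, pow_ap']

theorem A_rg (x : X) (z : E₂) : G.A x (G.ι x z) = G.ι x (z - G.ι' x (G.H x (G.ι x z))) := by
  rw [A_ap, map_sub, ← h.HP, h.iii]

theorem pow_rg (x : X) (n : ℕ) (z : E₂) : ∃ z', (G.A x ^ n) (G.ι x z) = G.ι x z' := by
  induction n with
  | zero => exact ⟨z, rfl⟩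
  | succ n ih => obtain ⟨z', e⟩ := ih; exact ⟨_, by rw [pow_ap, e, A_rg h]⟩

theorem A_in (x : X) (z : E₂) :
    (1 + G.a) * ‖G.ι x z‖ ^ 2 ≤ ⟪G.A x (G.ι x z), G.ι x z⟫_ℝ := by
  rw [A_ap, inner_sub_left, real_inner_self_eq_norm_sq]
  linarith [h.Hm x z]

theorem A_lo (x : X) (z : E₂) : (1 + G.a) * ‖G.ι x z‖ ≤ ‖G.A x (G.ι x z)‖ := by
  have a := (A_in h x z).trans (real_inner_le_norm _ _)
  rcases (norm_nonneg (G.ι x z)).eq_or_lt with e | e
  · rw [← e, mul_zero]; exact norm_nonneg _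
  · exact le_of_mul_le_mul_right (by nlinarith) e

theorem pow_in (x : X) (n : ℕ) : ∀ z : E₂,
    (1 + G.a) * ‖G.ι x z‖ ^ 2 ≤ ⟪(G.A x ^ (n + 1)) (G.ι x z), G.ι x z⟫_ℝ := by
  have ha := h.ha
  have sq : ∀ z, (1 + G.a) * ‖G.ι x z‖ ^ 2 ≤ ‖G.A x (G.ι x z)‖ ^ 2 := fun z => by
    have := pow_le_pow_left₀ (by positivity) (A_lo h x z) 2
    nlinarith [mul_nonneg (mul_nonneg ha.le (by linarith : 0 ≤ 1 + G.a)) (sq_nonneg ‖G.ι x z‖)]
  induction n using Nat.twoStepInduction with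
  | zero => intro z; rw [zero_add, pow_one]; exact A_in h x z
  | one => intro z; rw [pow_ap, A_sym h, pow_one, real_inner_self_eq_norm_sq]; exact sq z
  | more n ih _ =>
    intro z
    rw [add_right_comm, pow_ap, A_sym h, pow_ap', A_rg h]
    refine le_trans ?_ (ih _)
    rw [← A_rg h]
    nlinarith [sq z, mul_nonneg ha.le (sq_nonneg ‖G.A x (G.ι x z)‖)]

theorem A_hi (x : X) (y : E₁) : ‖G.A x y‖ ≤ 3 / 2 * ‖y‖ := by
  rw [A_ap]
  exact (norm_sub_le _ _).trans (by linarith [h.Hn x y])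

theorem pow_hi (x : X) (n : ℕ) (y : E₁) : ‖(G.A x ^ n) y‖ ≤ (3 / 2) ^ n * ‖y‖ := by
  induction n with
  | zero => simp
  | succ n ih => rw [pow_ap, pow_succ]; linarith [A_hi h x ((G.A x ^ n) y)]

theorem q_lo (x : X) (y : E₁) : -(‖y‖ ^ 2 / 4) ≤ G.q x y := by
  have := neg_le_of_abs_le (abs_real_inner_le_norm (G.H x y) y)
  have := mul_le_mul_of_nonneg_right (h.Hn x y) (norm_nonneg y)
  rw [Rg.q]; nlinarith

theorem q_A (x : X) (y : E₁) : G.q x (G.A x y) ≤ G.q x y := by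
  have := real_inner_le_norm (G.H x (G.H x y)) (G.H x y)
  have := mul_le_mul_of_nonneg_right (h.Hn x (G.H x y)) (norm_nonneg (G.H x y))
  rw [Rg.q, Rg.q, A_ap, map_sub, inner_sub_left, inner_sub_right, inner_sub_right,
    h.Hs x (G.H x y) y, real_inner_self_eq_norm_sq]
  nlinarith [sq_nonneg ‖G.H x y‖]

theorem q_pow (x : X) (n : ℕ) (y : E₁) : G.q x ((G.A x ^ n) y) ≤ G.q x y := by
  induction n with
  | zero => exact le_rfl
  | succ n ih => rw [pow_ap]; exact (q_A h x _).trans ih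

theorem q_far {η : ℝ} (hη : η ≤ G.a * G.r ^ 2 / 2) (x : X) (z : E₂) (k : G.r ≤ ‖G.ι x z‖) :
    G.q x (G.ι x z) ≤ -η := by
  have := mul_le_mul_of_nonneg_left (pow_le_pow_left₀ h.hr.le k 2) h.ha.le
  have := h.Hm x z
  rw [Rg.q]; linarith

theorem g_f {w : X × E₁} (hw : w ∈ G.Dm) : G.g (w.1, G.f w) ≤ G.g w :=
  h.j1 w hw ▸ h.jg 1 ⟨zero_le_one, le_rfl⟩ w hw

theorem fi_s (n : ℕ) (w : X × E₁) : G.fi (n + 1) w = G.f (w.1, G.fi n w) :=
  Function.iterate_succ_apply' _ _ _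

theorem g_fi (n : ℕ) {w : X × E₁} (hw : w ∈ G.Dm) :
    (w.1, G.fi n w) ∈ G.Dm ∧ G.g (w.1, G.fi n w) ≤ G.g w := by
  induction n with
  | zero => exact ⟨hw, le_rfl⟩
  | succ n ih => rw [fi_s h]; exact ⟨h.fD (w.1, G.fi n w), (g_f h ih.1).trans ih.2⟩

/-- the orbit of a small unstable vector is linear until it has left -/
theorem orb {η : ℝ} (hη : η ≤ G.a * G.r ^ 2 / 2) (x : X) (z : E₂) (k : ‖G.ι x z‖ ≤ G.r) (n : ℕ) :
    (G.fi n (x, G.ι x z) = (G.A x ^ n) (G.ι x z) ∧ ‖(G.A x ^ n) (G.ι x z)‖ ≤ 2 * G.r) ∨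
      (G.g (x, G.fi n (x, G.ι x z)) ≤ -η ∧ G.q x ((G.A x ^ n) (G.ι x z)) ≤ -η) := by
  have hr := h.hr
  have d := fun n => (g_fi h n (h.ln x _ (k.trans (by linarith))).1).1
  induction n with
  | zero => exact .inl ⟨rfl, k.trans (by linarith)⟩
  | succ n ih =>
    rw [fi_s h, pow_ap]
    rcases ih with ⟨e, b⟩ | ⟨a, b⟩
    · obtain ⟨m, gq, jl⟩ := h.ln x _ b
      rcases le_total ‖(G.A x ^ n) (G.ι x z)‖ G.r with l | l
      · refine .inl ⟨?_, (A_hi h x _).trans (by linarith)⟩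
        rw [e, ← h.j1 _ m, jl 1 ⟨zero_le_one, le_rfl⟩, one_smul, A_ap]
      · obtain ⟨z', e'⟩ := pow_rg h x n z
        have : G.q x ((G.A x ^ n) (G.ι x z)) ≤ -η := by rw [e'] at l ⊢; exact q_far h hη x z' l
        exact .inr ⟨by rw [e]; exact (g_f h m).trans (gq.le.trans this), (q_A h x _).trans this⟩
    · exact .inr ⟨(g_f h (d n)).trans a, (q_A h x _).trans b⟩

end

variable (G) in
/-- the linear part of `h₂` -/
def B (n : ℕ) (x : X) (s : ℝ) : E₂ →L[ℝ] E₂ :=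
  (1 - cl s) • (G.ι' x).comp ((G.A x ^ n).comp (G.ι x)) + (cl s * G.μ) • (G.ι' x).comp (G.ι x)

theorem B_ap (n : ℕ) (x : X) (s : ℝ) (z : E₂) : B G n x s z =
    (1 - cl s) • G.ι' x ((G.A x ^ n) (G.ι x z)) + (cl s * G.μ) • G.ι' x (G.ι x z) := rfl

section
variable (h : G.Ok c κ R₀ M)
include h

theorem B_sym (n : ℕ) (x : X) (s : ℝ) (z z' : E₂) :
    ⟪B G n x s z, z'⟫_ℝ = ⟪z, B G n x s z'⟫_ℝ := by
  simp only [B_ap, inner_add_left, inner_add_right, real_inner_smul_left, real_inner_smul_right,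
    ad' h, ← h.ad, pow_sym h]

theorem B_lo (n : ℕ) (x : X) (s : ℝ) (z : E₂) :
    (1 + G.κ' κ) * ‖G.ι x z‖ ≤ ‖B G (n + 1) x s z‖ := by
  have a := real_inner_le_norm (B G (n + 1) x s z) (G.ι' x (G.ι x z))
  have b := pow_in h x n z
  have k1 : G.κ' κ ≤ G.a := (min_le_right _ _).trans ((min_le_right _ _).trans (min_le_left _ _))
  have k2 : G.κ' κ ≤ G.μ - 1 :=
    (min_le_right _ _).trans ((min_le_right _ _).trans (min_le_right _ _))
  have e : ⟪B G (n + 1) x s z, G.ι' x (G.ι x z)⟫_ℝ = (1 - cl s) *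
      ⟪(G.A x ^ (n + 1)) (G.ι x z), G.ι x z⟫_ℝ + cl s * G.μ * ‖G.ι x z‖ ^ 2 := by
    simp only [B_ap, inner_add_left, real_inner_smul_left, ad' h, h.iii,
      real_inner_self_eq_norm_sq]
  rw [e, n_p h] at a
  rcases (norm_nonneg (G.ι x z)).eq_or_lt with e | e
  · rw [← e, mul_zero]; exact norm_nonneg _
  · refine le_of_mul_le_mul_right ?_ e
    have c0 := cl0 s
    have c1 := sub_nonneg.2 (cl1 s)
    have n2 := sq_nonneg ‖G.ι x z‖
    nlinarith [mul_le_mul_of_nonneg_left b c1, mul_nonneg (mul_nonneg c1 (sub_nonneg.2 k1)) n2,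
      mul_nonneg (mul_nonneg c0 (sub_nonneg.2 k2)) n2]

theorem A_ct (n : ℕ) : Continuous fun x => G.A x ^ n :=
  (continuous_const.sub h.Hc).pow n

theorem y_ct (n : ℕ) : Continuous fun w : (X × ℝ) × E₂ => (G.A w.1.1 ^ n) (G.ι w.1.1 w.2) :=
  ((A_ct h n).comp (by fun_prop)).clm_apply ((h.ic.comp (by fun_prop)).clm_apply continuous_snd)

theorem B_ct (n : ℕ) : Continuous fun w : (X × ℝ) × E₂ => B G n w.1.1 w.1.2 w.2 := by
  have c : Continuous fun w : (X × ℝ) × E₂ => cl w.1.2 := cl_ct.comp (by fun_prop)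
  have i : Continuous fun w : (X × ℝ) × E₂ => G.ι' w.1.1 := h.ic'.comp (by fun_prop)
  exact ((continuous_const.sub c).smul (i.clm_apply (y_ct h n))).add
    ((c.mul continuous_const).smul (i.clm_apply (y_ct h 0)))

theorem d_ct (T T' : ℕ) (η : ℝ) :
    Continuous fun w : (X × ℝ) × E₂ => (1 - cl w.1.2) * χ η (G.q₂ T T' w) := by
  have q : Continuous (G.q₂ T T') := continuous_const.mul
    (((h.Hc.comp (by fun_prop)).clm_apply (y_ct h _)).inner (y_ct h _))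
  exact (continuous_const.sub (cl_ct.comp (by fun_prop))).mul
    (cl_ct.comp (((continuous_const.mul q).div_const _).sub continuous_const))

end

end H2k

open H2k

theorem h2 : H2 := by
  intro X E₁ E₂ _ _ _ _ _ _ _ _ _ G c κ R₀ M h T T' η R₁ k
  have en : T' + 1 + T = T' + T + 1 := by ring
  have hh : ∀ w, (G.rd T T' η).h₂ w = (1 - (1 - cl w.1.2) * χ η (G.q₂ T T' w))⁻¹ •
      B G (T' + 1 + T) w.1.1 w.1.2 w.2 := fun _ => rfl
  have hO : ∀ w, w ∈ (G.rd T T' η).O₂ ↔ (1 - cl w.1.2) * χ η (G.q₂ T T' w) < 1 := fun _ => Iff.rfl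
  have hp : ∀ x z, (G.rd T T' η).p₂ x z = G.ι' x (G.ι x z) := fun _ _ => rfl
  have d0 : ∀ w : (X × ℝ) × E₂, 0 ≤ (1 - cl w.1.2) * χ η (G.q₂ T T' w) := fun w =>
    mul_nonneg (sub_nonneg.2 (cl1 _)) (cl0 _)
  have d1 : ∀ w : (X × ℝ) × E₂, (1 - cl w.1.2) * χ η (G.q₂ T T' w) ≤ 1 := fun w =>
    mul_le_one₀ (by linarith [cl0 w.1.2]) (cl0 _) (cl1 _)
  have k0 : 0 < G.κ' κ := lt_min h.hκ (lt_min one_pos (lt_min h.ha (sub_pos.2 h.hμ)))
  have lo : ∀ w : (X × ℝ) × E₂, (1 + G.κ' κ) * ‖G.ι w.1.1 w.2‖ ≤ ‖B G (T' + 1 + T) w.1.1 w.1.2 w.2‖ :=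
    fun w => en ▸ B_lo h _ _ _ _
  have ex : ∀ w ∈ (G.rd T T' η).O₂, (1 + G.κ' κ) * ‖G.ι w.1.1 w.2‖ ≤ ‖(G.rd T T' η).h₂ w‖ :=
    fun w hw => by
    have p := sub_pos.2 ((hO w).1 hw)
    rw [hh, norm_smul, Real.norm_of_nonneg (inv_pos.2 p).le]
    exact (lo w).trans (le_mul_of_one_le_left (norm_nonneg _)
      ((one_le_inv₀ p).2 (by linarith [d0 w])))
  have pp : ∀ w, G.ι' w.1.1 (G.ι w.1.1 ((G.rd T T' η).h₂ w)) = (G.rd T T' η).h₂ w := fun w => by
    simp only [hh, B_ap, map_smul, map_add, iii' h]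
  refine ⟨isOpen_lt (d_ct h T T' η) continuous_const, ?_, fun x s z => ⟨?_, ?_, pp ((x, s), z)⟩,
    fun R => ?_, fun w hw _ => ?_, fun x s z hs => ?_, fun x s z hs => ?_, fun x s n y hy e => ?_, ?_⟩
  · exact ((continuous_const.sub (d_ct h T T' η)).continuousOn.inv₀ fun w hw =>
      (sub_pos.2 ((hO w).1 hw)).ne').smul (B_ct h _).continuousOn
  · simp only [hO, hp, Rg.q₂, h.iii]
  · simp only [hh, hp, Rg.q₂, B_ap, h.iii]
  · have e : {w ∈ (G.rd T T' η).O₂ | |w.1.2| ≤ R ∧ ‖(G.rd T T' η).h₂ w‖ ≤ R ∧ ‖w.2‖ ≤ R} =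
        (univ ×ˢ Metric.closedBall 0 R) ×ˢ Metric.closedBall 0 R ∩
          {w | ‖B G (T' + 1 + T) w.1.1 w.1.2 w.2‖ ≤
            R * (1 - (1 - cl w.1.2) * χ η (G.q₂ T T' w))} := by
      have i : ∀ w ∈ (G.rd T T' η).O₂, ‖(G.rd T T' η).h₂ w‖ ≤ R ↔ ‖B G (T' + 1 + T) w.1.1 w.1.2 w.2‖ ≤
          R * (1 - (1 - cl w.1.2) * χ η (G.q₂ T T' w)) := fun w hw => by
        have p := sub_pos.2 ((hO w).1 hw)
        rw [hh, norm_smul, Real.norm_of_nonneg (inv_pos.2 p).le, inv_mul_le_iff₀ p, mul_comm]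
      ext w
      simp only [mem_inter_iff, mem_prod, mem_univ, true_and, mem_closedBall_zero_iff, mem_ofPred_eq,
        Real.norm_eq_abs]
      refine ⟨fun a => ⟨⟨a.2.1, a.2.2.2⟩, (i w a.1).1 a.2.2.1⟩, fun a => ?_⟩
      have o : w ∈ (G.rd T T' η).O₂ := (hO w).2 ((d1 w).lt_of_ne fun z => by
        have b := (lo w).trans a.2
        rw [z, sub_self, mul_zero] at b
        have : G.ι w.1.1 w.2 = 0 := norm_le_zero_iff.1 (by nlinarith [norm_nonneg (G.ι w.1.1 w.2)])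
        rw [chi_z k.η0 (by simp only [Rg.q₂, Rg.q, this, map_zero, inner_zero_left]; linarith [k.η0]),
          mul_zero] at z
        exact zero_ne_one z)
      exact ⟨o, a.1.1, (i w o).2 a.2, a.1.2⟩
    rw [e]
    exact ((isCompact_univ.prod (isCompact_closedBall _ _)).prod
      (isCompact_closedBall _ _)).inter_right (isClosed_le (B_ct h _).norm
        (continuous_const.mul (continuous_const.sub (d_ct h T T' η))))
  · rw [hp, n_p h]; exact ex w hw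
  · have hr := h.hr
    have a : ((x, s), z) ∈ (G.rd T T' η).O₂ ↔ -η < G.q x ((G.A x ^ (T' + 1 + T)) (G.ι x z)) := by
      rw [hO, cl_z hs, sub_zero, one_mul, chi_lt k.η0]; rfl
    have b : (x, (G.rd T T' η).u (x, z)) ∈ (G.rd T T' η).Ov ↔
      -η < G.g (x, G.F T (x, (G.rd T T' η).u (x, z))) := Iff.rfl
    have v : (G.rd T T' η).v (x, (G.rd T T' η).u (x, z)) =
      th η 1 (G.g (x, G.F T (x, (G.rd T T' η).u (x, z)))) •
        G.ι' x (G.F T (x, (G.rd T T' η).u (x, z))) := rfl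
    rw [a, b, v]
    rcases le_total ‖G.ι x z‖ G.r with l | l
    · have m : G.mx (G.ι x z) = 1 := max_eq_left ((div_le_one hr).2 l)
      have F : G.F T (x, (G.rd T T' η).u (x, z)) = G.fi (T' + 1 + T) (x, G.ι x z) := by
        change G.fi T (x, G.f (x, G.S x (G.mx (G.ι x z))
          (G.fi T' (x, (G.mx (G.ι x z))⁻¹ • G.ι x z)))) = _
        rw [m, Rg.S, sub_self, zero_smul, add_zero, inv_one, one_smul, ← fi_s h T' (x, G.ι x z),
          add_comm _ T]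
        exact (Function.iterate_add_apply _ _ _ _).symm
      rw [F]
      rcases orb h k.ηa x z l (T' + 1 + T) with ⟨e, n⟩ | ⟨p, q⟩
      · rw [e, (h.ln x _ n).2.1]
        refine ⟨Iff.rfl, fun _ => ?_⟩
        rw [hh, B_ap, cl_z hs, sub_zero, one_smul, zero_mul, zero_smul, add_zero]
        rfl
      · exact ⟨iff_of_false q.not_gt p.not_gt, fun o => absurd o p.not_gt⟩
    · have m : G.mx (G.ι x z) = ‖G.ι x z‖ / G.r := max_eq_right ((one_le_div hr).2 l)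
      have m1 : 1 ≤ G.mx (G.ι x z) := le_max_left _ _
      have n0 : ‖(G.mx (G.ι x z))⁻¹ • G.ι x z‖ = G.r := by
        have := hr.trans_le l
        rw [norm_smul, m, inv_div, Real.norm_of_nonneg (by positivity)]
        field_simp
      obtain ⟨d, gq, -⟩ := h.ln x ((G.mx (G.ι x z))⁻¹ • G.ι x z) (by linarith)
      have g0 := q_far h k.ηa x ((G.mx (G.ι x z))⁻¹ • z) (by rw [map_smul, n0])
      rw [map_smul] at g0
      have es := k.es _ d (gq.le.trans (g0.trans (by linarith [k.η0])))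
      have pu : R₁ ≤ ‖G.p₁ x ((G.rd T T' η).u (x, z))‖ := by
        change R₁ ≤ ‖G.p₁ x (G.S x (G.mx (G.ι x z))
          (G.fi T' (x, (G.mx (G.ι x z))⁻¹ • G.ι x z)))‖
        rw [Rg.S, map_add, map_smul, h.pi, sub_smul, one_smul, add_sub_cancel, norm_smul,
          Real.norm_of_nonneg (zero_le_one.trans m1)]
        exact es.trans (le_mul_of_one_le_left (norm_nonneg _) m1)
      obtain ⟨o, e⟩ := h.en x 1 ((G.rd T T' η).u (x, z)) le_rfl
      have x1 := h.hp.ex _ o (k.R0.trans pu)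
      rw [e] at x1
      have fd := h.fD (x, (G.rd T T' η).u (x, z))
      have p : G.g (x, G.F T (x, (G.rd T T' η).u (x, z))) ≤ -η := (g_fi h T fd).2.trans
        (k.rg _ fd (pu.trans (le_trans (le_mul_of_one_le_left (norm_nonneg _)
          (by linarith [h.hκ])) x1)))
      exact ⟨iff_of_false ((q_pow h x _ _).trans (q_far h k.ηa x z l)).not_gt p.not_gt,
        fun o => absurd o p.not_gt⟩
  · refine ⟨(hO _).2 (by rw [cl_o hs, sub_self, zero_mul]; exact one_pos), ?_⟩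
    rw [hh, B_ap, cl_o hs, sub_self, zero_mul, sub_zero, inv_one, one_smul, zero_smul, zero_add,
      one_mul]
    rfl
  · have a : ∀ i, (1 + G.κ' κ) * ‖y (i - 1)‖ ≤ ‖y i‖ := fun i => by
      have b := ex _ (hy (i - 1))
      rw [← e i, ← n_p h] at b
      rwa [e (i - 1), pp ((x, s), y (i - 1 - 1)), ← e (i - 1)] at b
    have b := Finset.sum_le_sum fun i (_ : i ∈ Finset.univ) => a i
    rw [← Finset.mul_sum, show ∑ i, ‖y (i - 1)‖ = ∑ i, ‖y i‖ from
      (Equiv.subRight (1 : Ix n)).sum_comp fun i => ‖y i‖] at b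
    have z : ∑ i, ‖y i‖ = 0 := le_antisymm (by nlinarith)
      (Finset.sum_nonneg fun _ _ => norm_nonneg _)
    exact funext fun i => norm_eq_zero.1
      ((Finset.sum_eq_zero_iff_of_nonneg fun _ _ => norm_nonneg _).1 z i (Finset.mem_univ _))
  · have η0 := k.η0
    refine ⟨min 1 η / (3 / 2) ^ (T' + 1 + T), by positivity, fun x s =>
      ⟨B G (T' + 1 + T) x s, nn_sym (B_sym h _ x s), fun y hy => ?_⟩⟩
    have a : ‖(G.A x ^ (T' + 1 + T)) (G.ι x y)‖ ≤ min 1 η := by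
      rw [lt_div_iff₀' (by positivity)] at hy
      exact (pow_hi h x _ _).trans ((mul_le_mul_of_nonneg_left (n_i h x y) (by positivity)).trans hy.le)
    have b : χ η (G.q₂ T T' ((x, s), y)) = 0 := chi_z η0 (le_trans (by
      have := mul_le_mul (a.trans (min_le_left _ _)) (a.trans (min_le_right _ _)) (norm_nonneg _)
        zero_le_one
      nlinarith) (q_lo h x _))
    refine ⟨(hO _).2 (by rw [b, mul_zero]; exact one_pos), ?_⟩
    rw [hh, b, mul_zero, sub_zero, inv_one, one_smul]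

end Crest.Agent.N218.Rd

end
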