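import Crest.Agent.N218.Rd.Dich
import Crest.Agent.N218.Rd.Uv
import Crest.Agent.N218.Rd.H1a
import Crest.Agent.N218.Rd.H1b
import Crest.Agent.N218.Rd.H2
import Crest.Agent.N218.Rd.Tail
import Crest.Agent.N218.Rd.Trs

/-! Row 218: RED. -/

namespace Crest.Agent.N218.Rd

theorem dyn' : DYN := dyn dich uv h1a h1b h2

theorem red' : RED := red dyn' (trs tail)

end Crest.Agent.N218.Rd
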