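import Crest.Agent.N218.Rd.Defs
import Crest.Agent.N218.Pm.Kit1
import Crest.Agent.N218.Pm.Adm0

/-! Row 218, RED (helper7): kit. -/

set_option autoImplicit false
set_option linter.unusedSectionVars false
open Set Topology
open scoped InnerProductSpace

namespace Crest.Agent.N218.Rd
open Pm

theorem χ_mem (η t : ℝ) : χ η t ∈ Icc (0 : ℝ) 1 := cl_mem _
@[fun_prop] theorem cont_χ {T : Type*} [TopologicalSpace T] (η : ℝ) {t : T → ℝ}
    (h : Continuous t) : Continuous fun x => χ η (t x) := by unfold χ cl; fun_prop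
theorem χ_zero {η t : ℝ} (h : 0 < η) (e : -η / 2 ≤ t) : χ η t = 0 :=
  cl_of_le (by rw [sub_nonpos, div_le_one h]; linarith)
theorem χ_lt_one {η t : ℝ} (h : 0 < η) : χ η t < 1 ↔ -η < t := by
  rw [χ, cl, max_lt_iff, min_lt_iff, sub_lt_iff_lt_add, div_lt_iff₀ h]
  exact ⟨fun a => a.2.elim (fun b => absurd b (lt_irrefl _)) fun b => by linarith,
    fun a => ⟨one_pos, Or.inr (by linarith)⟩⟩
theorem lt_of_χ {η t : ℝ} (h : 0 < η) (e : χ η t ≠ 0) : t < -η / 2 :=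
  lt_of_not_ge fun a => e (χ_zero h a)
theorem one_le_th {η β t : ℝ} (b : 0 ≤ β) (h : β * χ η t < 1) : 1 ≤ th η β t :=
  (one_le_inv₀ (by linarith)).2 (by linarith [mul_nonneg b (χ_mem η t).1])
theorem th_one {η β t : ℝ} (h : β * χ η t = 0) : th η β t = 1 := by simp [th, h]
/-- a bound on the blow-up factor keeps the point inside the domain -/
theorem le_of_th {η β t B : ℝ} (h : β * χ η t < 1) (e : th η β t ≤ B) :
    β * χ η t ≤ 1 - B⁻¹ := by
  have := inv_anti₀ (inv_pos.2 (by linarith : 0 < 1 - β * χ η t)) e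
  rw [inv_inv] at this; linarith

variable {X E₁ E₂ : Type} [TopologicalSpace X] [NormedAddCommGroup E₁] [InnerProductSpace ℝ E₁]
  [NormedAddCommGroup E₂] [InnerProductSpace ℝ E₂]

theorem Nn.of_sym {L : E₁ →L[ℝ] E₁} (h : ∀ a b, ⟪L a, b⟫_ℝ = ⟪a, L b⟫_ℝ) : Nn L :=
  fun c z j a b => Ad.sym_seq (M := c • (L : E₁ →ₗ[ℝ] E₁)) (a := 1)
    (fun u v => by simp [inner_smul_left, inner_smul_right, h]) one_ne_zero
    (fun i => by simpa using a i) b

namespace Rg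
variable {G : Rg X E₁ E₂} {c κ R₀ M : ℝ}

theorem P_apply (x : X) (y : E₁) : G.P x y = G.ι x (G.ι' x y) := rfl
theorem A_apply (x : X) (y : E₁) : G.A x y = y - G.H x y := rfl
theorem S_one (x : X) (y : E₁) : G.S x 1 y = y := by simp [S]
theorem one_le_mx (y : E₁) : 1 ≤ G.mx y := le_max_left _ _
theorem mx_pos (y : E₁) : 0 < G.mx y := one_pos.trans_le (one_le_mx y)
theorem fi_zero (w : X × E₁) : G.fi 0 w = w.2 := rfl
theorem fi_succ (n : ℕ) (w : X × E₁) : G.fi (n + 1) w = G.f (w.1, G.fi n w) :=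
  Function.iterate_succ_apply' _ _ _
theorem fi_succ' (n : ℕ) (w : X × E₁) : G.fi (n + 1) w = G.fi n (w.1, G.f w) := rfl
theorem fi_add (n m : ℕ) (w : X × E₁) : G.fi (n + m) w = G.fi n (w.1, G.fi m w) :=
  Function.iterate_add_apply _ _ _ _
theorem F_eq (T : ℕ) (w : X × E₁) : G.F T w = G.fi (T + 1) w := rfl
theorem κ'_le : G.κ' κ ≤ κ ∧ G.κ' κ ≤ 1 ∧ G.κ' κ ≤ G.a ∧ G.κ' κ ≤ G.μ - 1 := by
  simp only [κ', min_le_iff, le_refl, true_or, or_true, and_self]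

/-- symmetric, commutes with `H` and `P` -/
structure Cm (G : Rg X E₁ E₂) (x : X) (L : E₁ →L[ℝ] E₁) : Prop where
  sy : ∀ a b, ⟪L a, b⟫_ℝ = ⟪a, L b⟫_ℝ
  H : ∀ y, L (G.H x y) = G.H x (L y)
  P : ∀ y, L (G.P x y) = G.P x (L y)
theorem Cm.nn {x : X} {L : E₁ →L[ℝ] E₁} (h : G.Cm x L) : Nn L := Nn.of_sym h.sy
theorem Cm.one (x : X) : G.Cm x 1 := ⟨fun _ _ => rfl, fun _ => rfl, fun _ => rfl⟩

namespace Ok
variable (h : G.Ok c κ R₀ M)
include h

theorem κ'_pos : 0 < G.κ' κ := lt_min h.hκ (lt_min one_pos (lt_min h.ha (sub_pos.2 h.hμ)))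
theorem p_S (x : X) (l : ℝ) (y : E₁) : G.p₁ x (G.S x l y) = l • G.p₁ x y := by
  simp [S, h.pi, sub_smul]
theorem rest_S (x : X) (l : ℝ) (y : E₁) : G.S x l y - G.p₁ x (G.S x l y) = y - G.p₁ x y := by
  rw [h.p_S, S]; module
theorem cont_S {T : Type*} [TopologicalSpace T] {s : Set T} {x : T → X} {l : T → ℝ} {y : T → E₁}
    (a : ContinuousOn x s) (b : ContinuousOn l s) (d : ContinuousOn y s) :
    ContinuousOn (fun t => G.S (x t) (l t) (y t)) s :=
  d.add ((b.sub continuousOn_const).smul ((h.pc.comp_continuousOn a).clm_apply d))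
theorem mx_one {y : E₁} (e : ‖y‖ ≤ G.r) : G.mx y = 1 := max_eq_left ((div_le_one h.hr).2 e)
theorem mx_eq {y : E₁} (e : G.r ≤ ‖y‖) : G.mx y = ‖y‖ / G.r := max_eq_right ((one_le_div h.hr).2 e)
theorem norm_mx (y : E₁) : ‖(G.mx y)⁻¹ • y‖ ≤ G.r := by
  rw [norm_smul, norm_inv, Real.norm_of_nonneg (mx_pos y).le, inv_mul_le_iff₀ (mx_pos y),
    ← div_le_iff₀ h.hr]
  exact le_max_right _ _
theorem norm_mx' {y : E₁} (e : G.r ≤ ‖y‖) : ‖(G.mx y)⁻¹ • y‖ = G.r := by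
  have := h.hr
  have : ‖y‖ ≠ 0 := by linarith
  rw [norm_smul, norm_inv, Real.norm_of_nonneg (mx_pos y).le, h.mx_eq e]; field_simp
omit h in
theorem cont_mx : Continuous G.mx := by unfold mx; fun_prop

/-! ### the projection -/
theorem P_ι (x : X) (z : E₂) : G.P x (G.ι x z) = G.ι x z := h.iii x z
theorem P_P (x : X) (y : E₁) : G.P x (G.P x y) = G.P x y := h.iii x _
theorem ad' (x : X) (y : E₁) (z : E₂) : ⟪G.ι' x y, z⟫_ℝ = ⟪y, G.ι x z⟫_ℝ := by
  rw [real_inner_comm, ← h.ad, real_inner_comm]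
theorem P_sym (x : X) (a b : E₁) : ⟪G.P x a, b⟫_ℝ = ⟪a, G.P x b⟫_ℝ := by
  rw [P_apply, h.ad, h.ad', P_apply]
theorem ι'_P (x : X) (y : E₁) : G.ι' x (G.P x y) = G.ι' x y :=
  ext_inner_right ℝ fun z => by rw [h.ad', h.P_sym, h.P_ι, h.ad']
theorem ι'_Q (x : X) (y : E₁) : G.ι' x (y - G.P x y) = 0 := by rw [map_sub, h.ι'_P, sub_self]
theorem P_Q (x : X) (y : E₁) : G.P x (y - G.P x y) = 0 := by rw [map_sub, h.P_P, sub_self]
theorem sq_P (x : X) (y : E₁) : ⟪G.P x y, y⟫_ℝ = ‖G.P x y‖ ^ 2 := by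
  rw [← real_inner_self_eq_norm_sq, ← h.P_sym x (G.P x y), h.P_P]
theorem norm_ι' (x : X) (y : E₁) : ‖G.ι' x y‖ = ‖G.P x y‖ :=
  (sq_eq_sq₀ (norm_nonneg _) (norm_nonneg _)).1 (by
    rw [← h.sq_P, ← real_inner_self_eq_norm_sq, P_apply, h.ad])
theorem norm_p₂ (x : X) (z : E₂) : ‖G.ι' x (G.ι x z)‖ = ‖G.ι x z‖ := by rw [h.norm_ι', h.P_ι]
theorem norm_P (x : X) (y : E₁) : ‖G.P x y‖ ≤ ‖y‖ := by
  have a := real_inner_le_norm (G.P x y) y
  rw [h.sq_P] at a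
  nlinarith [norm_nonneg (G.P x y), norm_nonneg y]
theorem norm_Q (x : X) (y : E₁) : ‖y - G.P x y‖ ≤ ‖y‖ := by
  have a := norm_sub_sq_real y (G.P x y)
  rw [real_inner_comm, h.sq_P] at a
  exact (sq_le_sq₀ (norm_nonneg _) (norm_nonneg _)).1 (by nlinarith [sq_nonneg ‖G.P x y‖])
theorem norm_ι (x : X) (z : E₂) : ‖G.ι x z‖ ≤ ‖z‖ := by
  have a := real_inner_le_norm z (G.ι' x (G.ι x z))
  rw [← h.ad, real_inner_self_eq_norm_sq, h.norm_p₂] at a
  nlinarith [norm_nonneg (G.ι x z), norm_nonneg z]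
theorem norm_ι'_le (x : X) (y : E₁) : ‖G.ι' x y‖ ≤ ‖y‖ := (h.norm_ι' x y).trans_le (h.norm_P x y)
theorem cont_P : Continuous G.P := h.ic.clm_comp h.ic'
theorem cont_A : Continuous G.A := continuous_const.sub h.Hc

/-! ### the commuting class -/
theorem H_P (x : X) (y : E₁) : G.H x (G.P x y) = G.P x (G.H x y) := h.HP x y
/-- left multiplication by `a + b H + d P` -/
theorem cm {x : X} {L : E₁ →L[ℝ] E₁} (l : G.Cm x L) (a b d : ℝ) :
    G.Cm x ((a • 1 + b • G.H x + d • G.P x).comp L) :=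
  ⟨fun u v => by
    simp only [ContinuousLinearMap.comp_apply, add_apply,
      smul_apply, one_apply_eq_self, inner_add_left,
      inner_add_right, real_inner_smul_left, real_inner_smul_right, h.Hs, h.P_sym, l.sy, l.H, l.P],
    fun y => by simp [l.H, h.H_P], fun y => by simp [l.P, h.H_P, h.P_P]⟩
theorem cm_A {x : X} {L : E₁ →L[ℝ] E₁} (l : G.Cm x L) (n : ℕ) : G.Cm x ((G.A x ^ n).comp L) := by
  induction n with
  | zero => exact l
  | succ n ih =>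
    convert h.cm ih 1 (-1) 0 using 1
    ext y; simp [pow_succ', A_apply, sub_eq_add_neg]
theorem cm_P {x : X} {L : E₁ →L[ℝ] E₁} (l : G.Cm x L) : G.Cm x ((G.P x).comp L) := by
  convert h.cm l 0 0 1 using 1
  ext y; simp
theorem cm_pow (x : X) (n : ℕ) : G.Cm x (G.A x ^ n) := h.cm_A (Cm.one x) n
theorem norm_As (x : X) {s : ℝ} (e : s ∈ Icc (0 : ℝ) 1) (y : E₁) :
    ‖y - s • G.H x y‖ ≤ 3 / 2 * ‖y‖ := by
  refine (norm_sub_le _ _).trans ?_
  rw [norm_smul, Real.norm_of_nonneg e.1]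
  nlinarith [h.Hn x y, norm_nonneg (G.H x y), e.1, e.2]
theorem norm_pow (x : X) (n : ℕ) (y : E₁) : ‖(G.A x ^ n) y‖ ≤ (3 / 2) ^ n * ‖y‖ := by
  induction n with
  | zero => simp
  | succ n ih =>
    have := h.norm_As x ⟨zero_le_one, le_rfl⟩ ((G.A x ^ n) y)
    rw [one_smul] at this
    rw [pow_succ', pow_succ', mul_assoc]
    exact this.trans (mul_le_mul_of_nonneg_left ih (by norm_num))
theorem P_pow (x : X) (n : ℕ) {y : E₁} (e : G.P x y = y) :
    G.P x ((G.A x ^ n) y) = (G.A x ^ n) y := by rw [← (h.cm_pow x n).P, e]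

/-! ### the quadratic form -/
theorem abs_q (x : X) (y : E₁) : |G.q x y| ≤ 1 / 4 * ‖y‖ ^ 2 := by
  rw [q, abs_mul, abs_of_pos (by norm_num : (0 : ℝ) < 1 / 2)]
  nlinarith [abs_real_inner_le_norm (G.H x y) y, h.Hn x y, norm_nonneg y,
    mul_le_mul_of_nonneg_right (h.Hn x y) (norm_nonneg y)]
theorem q_W (x : X) {y : E₁} (e : G.P x y = y) : G.q x y ≤ -(G.a / 2 * ‖y‖ ^ 2) := by
  have := h.Hm x (G.ι' x y)
  rw [← P_apply, e] at this
  rw [q]; linarith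
theorem q_Q (x : X) (y : E₁) : 0 ≤ G.q x (y - G.P x y) :=
  mul_nonneg (by norm_num) (h.Hp x _ (h.ι'_Q x y))
theorem q_split (x : X) (y : E₁) (a b : ℝ) : G.q x (a • (y - G.P x y) + b • G.P x y) =
    a ^ 2 * G.q x (y - G.P x y) + b ^ 2 * G.q x (G.P x y) := by
  have o : ⟪G.H x (G.P x y), y - G.P x y⟫_ℝ = 0 := by
    rw [h.H_P, h.P_sym, h.P_Q, inner_zero_right]
  have o' : ⟪G.H x (y - G.P x y), G.P x y⟫_ℝ = 0 := by rw [h.Hs, real_inner_comm, o]
  simp only [q, map_add, map_smul, inner_add_left, inner_add_right, real_inner_smul_left,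
    real_inner_smul_right, o, o']
  ring
theorem q_eq (x : X) (y : E₁) : G.q x y = G.q x (y - G.P x y) + G.q x (G.P x y) := by
  simpa using h.q_split x y 1 1
theorem q_ge (x : X) (y : E₁) : -(1 / 4 * ‖G.P x y‖ ^ 2) ≤ G.q x y := by
  linarith [h.q_eq x y, h.q_Q x y, (abs_le.1 (h.abs_q x (G.P x y))).1]
theorem q_mono (x : X) (y : E₁) {a b : ℝ} (a0 : 0 ≤ a) (a1 : a ≤ 1) (b1 : 1 ≤ b) :
    G.q x (a • (y - G.P x y) + b • G.P x y) ≤ G.q x y := by
  rw [h.q_split, h.q_eq x y]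
  have u := h.q_W x (h.P_P x y)
  have v : 0 ≤ G.a / 2 * ‖G.P x y‖ ^ 2 := by have := h.ha; positivity
  nlinarith [mul_nonneg (show 0 ≤ 1 - a ^ 2 by nlinarith) (h.q_Q x y),
    mul_nonneg (show 0 ≤ b ^ 2 - 1 by nlinarith) (show 0 ≤ -G.q x (G.P x y) by linarith)]
theorem q_A (x : X) {y : E₁} (e : G.P x y = y) : G.q x (G.A x y) ≤ G.q x y := by
  have u := h.q_W x (y := G.H x y) (by rw [← h.H_P, e])
  have v : 0 ≤ G.a / 2 * ‖G.H x y‖ ^ 2 := by have := h.ha; positivity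
  have w := h.Hs x (G.H x y) y
  simp only [q, A_apply, map_sub, inner_sub_left, inner_sub_right] at u ⊢
  rw [w, real_inner_self_eq_norm_sq]
  nlinarith [sq_nonneg ‖G.H x y‖]
theorem q_pow (x : X) (n : ℕ) {y : E₁} (e : G.P x y = y) : G.q x ((G.A x ^ n) y) ≤ G.q x y := by
  induction n with
  | zero => simp
  | succ n ih => rw [pow_succ']; exact (h.q_A x (h.P_pow x n e)).trans ih
theorem inner_A (x : X) {y : E₁} (e : G.P x y = y) : (1 + G.a) * ‖y‖ ^ 2 ≤ ⟪G.A x y, y⟫_ℝ := by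
  have := h.q_W x e
  rw [A_apply, inner_sub_left, real_inner_self_eq_norm_sq]
  rw [q] at this; linarith
theorem le_A (x : X) {y : E₁} (e : G.P x y = y) : (1 + G.a) * ‖y‖ ≤ ‖G.A x y‖ := by
  rcases (norm_nonneg y).eq_or_lt with a | a
  · rw [← a, mul_zero]; exact norm_nonneg _
  · exact le_of_mul_le_mul_right (by
      nlinarith [h.inner_A x e, real_inner_le_norm (G.A x y) y]) a
theorem inner_pow (x : X) (n : ℕ) : ∀ {y : E₁}, G.P x y = y →
    (1 + G.a) * ‖y‖ ^ 2 ≤ ⟪(G.A x ^ (n + 1)) y, y⟫_ℝ := by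
  have a := h.ha
  have s := (h.cm_pow x 1).sy
  rw [pow_one] at s
  have k : ∀ y, G.P x y = y → (1 + G.a) * ‖y‖ ^ 2 ≤ ‖G.A x y‖ ^ 2 := fun y e => by
    have := mul_self_le_mul_self (by positivity) (h.le_A x e)
    nlinarith [mul_nonneg (mul_nonneg a.le (by positivity : 0 ≤ 1 + G.a)) (sq_nonneg ‖y‖)]
  induction n using Nat.twoStepInduction with
  | zero => intro y e; simpa using h.inner_A x e
  | one =>
    intro y e
    rw [show (G.A x ^ (1 + 1)) y = G.A x (G.A x y) by rw [pow_succ, pow_one]; rfl, s,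
      real_inner_self_eq_norm_sq]
    exact k y e
  | more n ih _ =>
    intro y e
    have := ih (y := G.A x y) (by simpa using h.P_pow x 1 e)
    rw [show (G.A x ^ (n + 2 + 1)) y = G.A x ((G.A x ^ (n + 1)) (G.A x y)) by
      rw [pow_succ', pow_succ]; rfl, s]
    nlinarith [k y e, mul_nonneg a.le (sq_nonneg ‖G.A x y‖)]

/-! ### iterates -/
theorem g_ln {x : X} {y : E₁} (e : ‖y‖ ≤ 2 * G.r) : G.g (x, y) = G.q x y := (h.ln x y e).2.1
theorem f_ln {x : X} {y : E₁} (e : ‖y‖ ≤ 2 * G.r) : G.f (x, y) = G.A x y := by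
  rw [← h.j1 _ (h.ln x y e).1, (h.ln x y e).2.2 1 ⟨zero_le_one, le_rfl⟩, one_smul, A_apply]
theorem f_x (w : X × E₁) (e : R₀ ≤ ‖G.p₁ w.1 w.2‖) :
    (1 + κ) * ‖G.p₁ w.1 w.2‖ ≤ ‖G.p₁ w.1 (G.f w)‖ := by
  have := h.hp.ex _ (h.en w.1 1 w.2 le_rfl).1 e
  rwa [(h.en w.1 1 w.2 le_rfl).2] at this
theorem f_g {w : X × E₁} (e : w ∈ G.Dm) : G.g (w.1, G.f w) ≤ G.g w :=
  h.j1 w e ▸ h.jg 1 ⟨zero_le_one, le_rfl⟩ w e
theorem cont_fi (n : ℕ) : Continuous (G.fi n) := by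
  induction n with
  | zero => exact continuous_snd
  | succ n ih => exact (h.fc.comp (continuous_fst.prodMk ih)).congr fun w => (fi_succ n w).symm
theorem fi_D (n : ℕ) {w : X × E₁} (e : w ∈ G.Dm) : (w.1, G.fi n w) ∈ G.Dm := by
  cases n with
  | zero => exact e
  | succ n => rw [fi_succ]; exact h.fD (w.1, G.fi n w)
theorem fi_g (n : ℕ) {w : X × E₁} (e : w ∈ G.Dm) : G.g (w.1, G.fi n w) ≤ G.g w := by
  induction n with
  | zero => exact le_rfl
  | succ n ih => rw [fi_succ]; exact (h.f_g (h.fi_D n e)).trans ih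
theorem fi_x (n : ℕ) (w : X × E₁) (e : R₀ ≤ ‖G.p₁ w.1 w.2‖) :
    ‖G.p₁ w.1 w.2‖ ≤ ‖G.p₁ w.1 (G.fi n w)‖ := by
  induction n with
  | zero => exact le_rfl
  | succ n ih =>
    rw [fi_succ]
    refine ih.trans (le_trans ?_ (h.f_x (w.1, G.fi n w) (e.trans ih)))
    exact le_mul_of_one_le_left (norm_nonneg _) (by linarith [h.hκ])
theorem fi_ln (n : ℕ) {x : X} {y : E₁} (e : (3 / 2) ^ n * ‖y‖ ≤ 2 * G.r) :
    G.fi n (x, y) = (G.A x ^ n) y := by
  induction n with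
  | zero => rfl
  | succ n ih =>
    have a : (3 / 2) ^ n * ‖y‖ ≤ 2 * G.r := by
      refine le_trans ?_ e
      rw [pow_succ]
      nlinarith [mul_nonneg (pow_nonneg (by norm_num : (0 : ℝ) ≤ 3 / 2) n) (norm_nonneg y)]
    rw [fi_succ, ih a, h.f_ln ((h.norm_pow x n y).trans a), pow_succ']; rfl
/-- orbits in the negative space -/
theorem WL {η : ℝ} (hη : η ≤ G.a * G.r ^ 2 / 2) {x : X} {y : E₁} (e : G.P x y = y)
    (b : ‖y‖ ≤ G.r) (n : ℕ) : (G.fi n (x, y) = (G.A x ^ n) y ∧ ‖(G.A x ^ n) y‖ ≤ G.r) ∨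
      (G.g (x, G.fi n (x, y)) ≤ -η ∧ G.q x ((G.A x ^ n) y) ≤ -η) := by
  have r := h.hr
  induction n with
  | zero => exact Or.inl ⟨rfl, b⟩
  | succ n ih =>
    rw [fi_succ, pow_succ', mul_apply_eq_comp]
    rcases ih with ⟨u, v⟩ | ⟨u, v⟩
    · rw [u, h.f_ln (by linarith)]
      have a := h.norm_pow x 1 ((G.A x ^ n) y)
      have p := h.P_pow x 1 (h.P_pow x n e)
      rw [pow_one] at p
      rw [pow_one, pow_one] at a
      refine (le_total _ G.r).imp (fun k => ⟨rfl, k⟩) fun k => ?_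
      have := h.q_W x p
      have t := mul_le_mul_of_nonneg_left (mul_self_le_mul_self r.le k) h.ha.le
      rw [h.g_ln (by linarith), and_self]
      nlinarith
    · exact Or.inr ⟨(h.f_g (h.fi_D n (h.ln x y (by linarith)).1)).trans u,
        (h.q_A x (h.P_pow x n e)).trans v⟩

theorem cont_it (n : ℕ) : Continuous fun p : ℝ × X × E₁ => G.it p.1 p.2 n := by
  induction n with
  | zero => exact continuous_snd.snd
  | succ n ih =>
    exact h.jc.comp ((show Continuous fun p : ℝ × X × E₁ => cl (p.1 - n) by fun_prop).prodMk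
      (continuous_snd.fst.prodMk ih))
theorem it_le {t : ℝ} (e : t ≤ 0) (w : X × E₁) (n : ℕ) : G.it t w n = w.2 := by
  induction n with
  | zero => rfl
  | succ n ih => rw [it, cl_of_le (by linarith [n.cast_nonneg (α := ℝ)]), h.j0, ih]
theorem it_D (t : ℝ) {w : X × E₁} (e : w ∈ G.Dm) (n : ℕ) : (w.1, G.it t w n) ∈ G.Dm := by
  induction n with
  | zero => exact e
  | succ n ih => exact h.jD _ (cl_mem _) _ ih
theorem it_g (t : ℝ) {w : X × E₁} (e : w ∈ G.Dm) (n : ℕ) : G.g (w.1, G.it t w n) ≤ G.g w := by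
  induction n with
  | zero => exact le_rfl
  | succ n ih => exact (h.jg _ (cl_mem _) _ (h.it_D t e n)).trans ih
theorem it_x (t : ℝ) {w : X × E₁} (e : w ∈ G.Dm) (b : R₀ ≤ ‖G.p₁ w.1 w.2‖) (n : ℕ) :
    ‖G.p₁ w.1 w.2‖ ≤ ‖G.p₁ w.1 (G.it t w n)‖ := by
  induction n with
  | zero => exact le_rfl
  | succ n ih => exact ih.trans (h.jx _ (cl_mem _) _ (h.it_D t e n) (b.trans ih))
theorem it_ge {t : ℝ} {w : X × E₁} (e : w ∈ G.Dm) {n : ℕ} (b : (n : ℝ) ≤ t) :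
    G.it t w n = G.fi n w := by
  induction n with
  | zero => rfl
  | succ n ih =>
    push_cast at b
    rw [it, cl_of_ge (by linarith), ih (by linarith), h.j1 _ (h.fi_D n e), fi_succ]
/-- near `0` the path is linear, in the commuting class -/
theorem it_ln (t : ℝ) (x : X) (n : ℕ) : ∃ B : E₁ →L[ℝ] E₁,
    (∀ L, G.Cm x L → G.Cm x (B.comp L)) ∧ (∀ y, ‖B y‖ ≤ (3 / 2) ^ n * ‖y‖) ∧
      ∀ y, (3 / 2) ^ n * ‖y‖ ≤ 2 * G.r → G.it t (x, y) n = B y := by
  induction n with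
  | zero => exact ⟨1, fun L l => l, fun y => by simp, fun y _ => rfl⟩
  | succ n ih =>
    obtain ⟨B, a, b, d⟩ := ih
    have k : ∀ y, (((1 : ℝ) • 1 + (-cl (t - n)) • G.H x + (0 : ℝ) • G.P x).comp B) y =
        B y - cl (t - n) • G.H x (B y) := fun y => by simp [sub_eq_add_neg]
    refine ⟨((1 : ℝ) • 1 + (-cl (t - n)) • G.H x + (0 : ℝ) • G.P x).comp B,
      fun L l => h.cm (a L l) 1 (-cl (t - n)) 0, fun y => ?_, fun y e => ?_⟩
    · rw [k, pow_succ', mul_assoc]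
      exact (h.norm_As x (cl_mem _) _).trans (mul_le_mul_of_nonneg_left (b y) (by norm_num))
    · have u : (3 / 2) ^ n * ‖y‖ ≤ 2 * G.r := by
        refine le_trans ?_ e
        rw [pow_succ]
        nlinarith [mul_nonneg (pow_nonneg (by norm_num : (0 : ℝ) ≤ 3 / 2) n) (norm_nonneg y)]
      rw [k, it, d y u]
      exact (h.ln x _ ((b y).trans u)).2.2 _ (cl_mem _)
end Ok
end Rg

end Crest.Agent.N218.Rd
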